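import Vale.Agent.P181.H280.Final

set_option autoImplicit false

open scoped TensorProduct

namespace Vale.Agent.P181.H867

open Vale.Agent.P181 Vale.Agent.P181.H280 MvPolynomial

universe u

section PowerMap

variable {V : Type u} [AddCommGroup V] [Module ℂ V]

/-- The reindexing `(s, (k, i)) ↦ (i, (k, s))`. -/
def blockEquivG (d q c : ℕ) : Fin c × Fin (q * d) ≃ Fin d × Fin (q * c) where
  toFun p := ((finProdFinEquiv.symm p.2).2, finProdFinEquiv ((finProdFinEquiv.symm p.2).1, p.1))
  invFun p := ((finProdFinEquiv.symm p.2).2, finProdFinEquiv ((finProdFinEquiv.symm p.2).1, p.1))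
  left_inv p := by
    simp only [Equiv.symm_apply_apply, Prod.mk.eta, Equiv.apply_symm_apply]
  right_inv p := by
    simp only [Equiv.symm_apply_apply, Prod.mk.eta, Equiv.apply_symm_apply]

/-- Cut each of `d` rows of `q * c` vectors into `q` blocks of length `c`, and multiply. -/
noncomputable def blockMulG (d q c : ℕ) (V : Type u) [AddCommGroup V] [Module ℂ V] :
    MultilinearMap ℂ (fun _ : Fin d × Fin (q * c) => V) (Sym[ℂ]^(q * d) (Sym[ℂ]^c V)) :=
  (colMul c (q * d) V).domDomCongr (blockEquivG d q c)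

lemma blockMulG_apply (d q c : ℕ) (v : Fin d × Fin (q * c) → V) : blockMulG d q c V v =
    SymmetricPower.tprod ℂ (fun j : Fin (q * d) => SymmetricPower.tprod ℂ (fun s : Fin c =>
      v ((finProdFinEquiv.symm j).2, finProdFinEquiv ((finProdFinEquiv.symm j).1, s)))) := rfl

variable [FiniteDimensional ℂ V]

/-- `blockMulG` as a multilinear map of tensors (the rows). -/
noncomputable def powLiftG (d q c : ℕ) (V : Type u) [AddCommGroup V] [Module ℂ V]
    [FiniteDimensional ℂ V] :
    MultilinearMap ℂ (fun _ : Fin d => (⨂[ℂ] _ : Fin (q * c), V))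
      (Sym[ℂ]^(q * d) (Sym[ℂ]^c V)) :=
  (exists_rowLift (blockMulG d q c V)).choose

lemma powLiftG_tprod (d q c : ℕ) (v : Fin d → Fin (q * c) → V) :
    powLiftG d q c V (fun i => PiTensorProduct.tprod ℂ (v i)) =
      SymmetricPower.tprod ℂ (fun j : Fin (q * d) => SymmetricPower.tprod ℂ (fun s : Fin c =>
        v (finProdFinEquiv.symm j).2 (finProdFinEquiv ((finProdFinEquiv.symm j).1, s)))) :=
  (exists_rowLift (blockMulG d q c V)).choose_spec v

lemma powLiftG_symm (d q c : ℕ) (e : Equiv.Perm (Fin d)) (t : Fin d → (⨂[ℂ] _ : Fin (q * c), V)) :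
    powLiftG d q c V (fun i => t (e i)) = powLiftG d q c V t := by
  have h : (powLiftG d q c V).domDomCongr e - powLiftG d q c V = 0 := by
    ext1 t
    apply multilinear_eq_zero_of_span _ _
      (PiTensorProduct.span_tprod_eq_top (R := ℂ) (s := fun _ : Fin (q * c) => V))
    intro w hw
    choose v hv using hw
    have hw' : w = fun i => PiTensorProduct.tprod ℂ (v i) := by
      funext i; exact (hv i).symm
    subst hw'
    rw [sub_apply, MultilinearMap.domDomCongr_apply,
      powLiftG_tprod d q c (fun i => v (e i)), powLiftG_tprod]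
    rw [sub_eq_zero]
    have h2 := SymmetricPower.tprod_equiv (R := ℂ) (blockPerm d q e) (fun j : Fin (q * d) =>
      SymmetricPower.tprod ℂ (fun s : Fin c =>
        v (finProdFinEquiv.symm j).2 (finProdFinEquiv ((finProdFinEquiv.symm j).1, s))))
    rw [← h2]
    congr 1
    funext j
    rw [blockPerm_symm_apply]
  have h1 := congrArg (fun g => g t) h
  simp only [sub_apply, MultilinearMap.domDomCongr_apply,
    zero_apply, sub_eq_zero] at h1
  exact h1

/-- The power map `Sym^d(Sym^{qc} V) → Sym^{qd}(Sym^c V)`: cut each row into `q` blocks of length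
`c` in all possible ways. In terms of polynomial functions it is `F ↦ (G ↦ F(G^q, …, G^q))`. -/
noncomputable def powMapG (d q c : ℕ) (V : Type u) [AddCommGroup V] [Module ℂ V]
    [FiniteDimensional ℂ V] :
    Sym[ℂ]^d (Sym[ℂ]^(q * c) V) →ₗ[ℂ] Sym[ℂ]^(q * d) (Sym[ℂ]^c V) :=
  symLift ((powLiftG d q c V).compLinearMap (fun _ => symSum (Fin (q * c)) V)) (fun e v => by
    rw [MultilinearMap.compLinearMap_apply, MultilinearMap.compLinearMap_apply]
    exact powLiftG_symm d q c e (fun i => symSum (Fin (q * c)) V (v i)))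

lemma powMapG_tprod (d q c : ℕ) (v : Fin d → Fin (q * c) → V) :
    powMapG d q c V (SymmetricPower.tprod ℂ (fun i => SymmetricPower.tprod ℂ (v i))) =
      ∑ σ : Fin d → Equiv.Perm (Fin (q * c)), SymmetricPower.tprod ℂ (fun j : Fin (q * d) =>
        SymmetricPower.tprod ℂ (fun s : Fin c =>
          v (finProdFinEquiv.symm j).2 (σ (finProdFinEquiv.symm j).2
            (finProdFinEquiv ((finProdFinEquiv.symm j).1, s))))) := by
  rw [powMapG, symLift_tprod, MultilinearMap.compLinearMap_apply]
  simp only [symSum_tprod]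
  rw [MultilinearMap.map_sum]
  apply Finset.sum_congr rfl
  intro σ _
  exact powLiftG_tprod d q c (fun i j => v i (σ i j))

lemma powMapG_equivariant (d q c : ℕ) (g : V →ₗ[ℂ] V) :
    powMapG d q c V ∘ₗ symMap d (symMap (q * c) g) =
      symMap (q * d) (symMap c g) ∘ₗ powMapG d q c V := by
  apply pure_hom_ext
  intro v
  rw [LinearMap.comp_apply, LinearMap.comp_apply, symMap_tprod, powMapG_tprod, map_sum]
  have h1 : (fun i => symMap (q * c) g (SymmetricPower.tprod ℂ (v i))) =
      fun i => SymmetricPower.tprod ℂ (fun j => g (v i j)) := by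
    funext i; rw [symMap_tprod]
  rw [h1, powMapG_tprod d q c (fun i j => g (v i j))]
  apply Finset.sum_congr rfl
  intro σ _
  rw [symMap_tprod]
  congr 1
  funext j
  rw [symMap_tprod]

lemma prod_blockG {d q : ℕ} (f : Fin q → Fin d → ℂ) :
    ∏ j : Fin (q * d), f (finProdFinEquiv.symm j).1 (finProdFinEquiv.symm j).2 =
      ∏ i, ∏ k, f k i := prod_block f

/-- The functionals of `ℂ`-valued evaluation of the power map. -/
lemma symEval_powMapG {d q c : ℕ} (v : Fin d → Fin (q * c) → V)
    (ξ : Fin (q * d) → Module.Dual ℂ V) :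
    symEval (fun j => evalPow c (ξ j)) (powMapG d q c V
      (SymmetricPower.tprod ℂ (fun i => SymmetricPower.tprod ℂ (v i)))) =
    ∑ π : Equiv.Perm (Fin (q * d)), ∏ i, ryser (v i) (∏ t : Fin (q * c),
      (fun w => ξ (π (finProdFinEquiv ((finProdFinEquiv.symm t).1, i))) w)) := by
  rw [powMapG_tprod, map_sum]
  simp only [symEval_tprod, evalPow_tprod, ryser_prod]
  rw [Finset.sum_comm]
  rw [← Equiv.sum_comp (Equiv.inv (Equiv.Perm (Fin (q * d))))]
  apply Finset.sum_congr rfl
  intro π _
  simp only [Equiv.inv_apply]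
  rw [Finset.prod_univ_sum, Fintype.piFinset_univ]
  apply Finset.sum_congr rfl
  intro σ _
  have h1 : ∀ i : Fin d, ∏ t : Fin (q * c),
      ξ (π (finProdFinEquiv ((finProdFinEquiv.symm t).1, i))) (v i (σ i t)) =
      ∏ k : Fin q, ∏ s : Fin c,
        ξ (π (finProdFinEquiv (k, i))) (v i (σ i (finProdFinEquiv (k, s)))) := by
    intro i
    rw [← Equiv.prod_comp finProdFinEquiv, Fintype.prod_prod_type]
    simp only [Equiv.symm_apply_apply]
  rw [Finset.prod_congr rfl (fun i _ => h1 i)]
  rw [← Equiv.prod_comp π]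
  have h2 : ∀ j : Fin (q * d), π⁻¹ (π j) = j := fun j => π.symm_apply_apply j
  simp only [h2]
  rw [← prod_block (fun k i => ∏ s : Fin c,
    ξ (π (finProdFinEquiv (k, i))) (v i (σ i (finProdFinEquiv (k, s)))))]
  apply Finset.prod_congr rfl
  intro j _
  rw [Prod.mk.eta, Equiv.apply_symm_apply]

end PowerMap

section Form

variable {n : ℕ}

/-- The power map on forms. -/
lemma formOf_powG {d q c : ℕ} (l : (Fin d → Fin (q * c) → (Fin n → ℂ)) →₀ ℂ)
    (h0 : powMapG d q c (Fin n → ℂ) (elOf l) = 0) (G : MvPolynomial (Fin n) ℂ)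
    (hG : G ∈ linS n ^ c) : formOf l (fun _ => G ^ q) = 0 := by
  classical
  let cp : Equiv.Perm (Fin (q * d)) → (Fin d × Fin q ≃ Fin (q * d)) := fun p =>
    ((Equiv.prodComm _ _).trans finProdFinEquiv).trans p
  have hcp : ∀ p i k, cp p (i, k) = p (finProdFinEquiv (k, i)) := fun p i k => rfl
  let Φ : MultilinearMap ℂ (fun _ : Fin (q * d) => MvPolynomial (Fin n) ℂ) ℂ :=
    ∑ p : Equiv.Perm (Fin (q * d)), (rowProd q (formOf l)).domDomCongr (cp p)
  have hΦ : ∀ y, Φ y = ∑ p : Equiv.Perm (Fin (q * d)),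
      formOf l (fun i => ∏ k : Fin q, y (p (finProdFinEquiv (k, i)))) := by
    intro y
    simp only [Φ, _root_.sum_apply, MultilinearMap.domDomCongr_apply, rowProd_apply, hcp]
  have hvan : ∀ y : Fin (q * d) → MvPolynomial (Fin n) ℂ,
      (∀ j, y j ∈ ((fun ζ => ζ ^ c) '' (linS n : Set (MvPolynomial (Fin n) ℂ)))) → Φ y = 0 := by
    intro y hy
    choose ζ hζ hyζ using hy
    choose ξ hξ using fun j => exists_dual (hζ j)
    rw [hΦ]
    have h1 : ∀ (p : Equiv.Perm (Fin (q * d))) (i : Fin d),
        evL n (∏ k : Fin q, y (p (finProdFinEquiv (k, i)))) =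
        ∏ t : Fin (q * c),
          (fun w => ξ (p (finProdFinEquiv ((finProdFinEquiv.symm t).1, i))) w) := by
      intro p i
      rw [evL_prod, ← Equiv.prod_comp finProdFinEquiv, Fintype.prod_prod_type]
      apply Finset.prod_congr rfl
      intro k _
      simp only [Equiv.symm_apply_apply, Finset.prod_const, Finset.card_univ, Fintype.card_fin]
      funext w
      rw [← hyζ, evL_apply, map_pow, Pi.pow_apply, ← evL_apply, hξ]
    simp only [formOf_apply, h1]
    have h2 := congrArg (symEval (fun j => evalPow c (ξ j))) h0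
    rw [map_zero, elOf, map_sum, map_sum] at h2
    simp only [map_smul, symEval_powMapG, smul_eq_mul] at h2
    rw [Finset.sum_comm]
    have h3 : ∀ v : Fin d → Fin (q * c) → (Fin n → ℂ), ∀ σ : Equiv.Perm (Fin d),
        ∑ p : Equiv.Perm (Fin (q * d)), ∏ i, ryser (v (σ i)) (∏ t : Fin (q * c),
          (fun w => ξ (p (finProdFinEquiv ((finProdFinEquiv.symm t).1, i))) w)) =
        ∑ p : Equiv.Perm (Fin (q * d)), ∏ i, ryser (v i) (∏ t : Fin (q * c),
          (fun w => ξ (p (finProdFinEquiv ((finProdFinEquiv.symm t).1, i))) w)) := by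
      intro v σ
      rw [← Equiv.sum_comp (Equiv.mulRight (blockPerm d q σ))]
      apply Finset.sum_congr rfl
      intro p _
      rw [← Equiv.prod_comp σ (fun i => ryser (v i) (∏ t : Fin (q * c),
        (fun w => ξ (p (finProdFinEquiv ((finProdFinEquiv.symm t).1, i))) w)))]
      apply Finset.prod_congr rfl
      intro i _
      congr 1
      apply Finset.prod_congr rfl
      intro t _
      simp only [Equiv.coe_mulRight, Equiv.Perm.coe_mul, Function.comp_apply]
      have h4 : blockPerm d q σ (finProdFinEquiv ((finProdFinEquiv.symm t).1, i)) =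
          finProdFinEquiv ((finProdFinEquiv.symm t).1, σ i) := by
        simp only [blockPerm, Equiv.trans_apply, Equiv.symm_apply_apply]
        rfl
      rw [h4]
    have h5 : ∀ v ∈ l.support, ∑ p : Equiv.Perm (Fin (q * d)), l v *
        ∑ σ : Equiv.Perm (Fin d), ∏ i, ryser (v (σ i)) (∏ t : Fin (q * c),
          (fun w => ξ (p (finProdFinEquiv ((finProdFinEquiv.symm t).1, i))) w)) =
        (Fintype.card (Equiv.Perm (Fin d)) : ℂ) * (l v *
        ∑ p : Equiv.Perm (Fin (q * d)), ∏ i, ryser (v i) (∏ t : Fin (q * c),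
          (fun w => ξ (p (finProdFinEquiv ((finProdFinEquiv.symm t).1, i))) w))) := by
      intro v _
      rw [← Finset.mul_sum, Finset.sum_comm, Finset.sum_congr rfl (fun σ _ => h3 v σ),
        Finset.sum_const, nsmul_eq_mul, Finset.card_univ]
      ring
    rw [Finset.sum_congr rfl h5, ← Finset.mul_sum, h2, mul_zero]
  have hG' : Φ (fun _ => G) = 0 :=
    multilinear_zero_of_span Φ _ hvan (fun _ => G) (fun _ => pow_le_span_pow _ _ hG)
  rw [hΦ] at hG'
  simp only [Finset.prod_const, Finset.card_univ, Fintype.card_fin, Finset.sum_const,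
    nsmul_eq_mul] at hG'
  refine (mul_eq_zero.1 hG').resolve_left ?_
  exact_mod_cast Fintype.card_ne_zero

lemma powMapG_hwSpace {d q c : ℕ} (lam : Fin n → ℕ)
    (x : Sym[ℂ]^d (Sym[ℂ]^(q * c) (Fin n → ℂ))) (hx : x ∈ hwSpace lam (plethAct d (q * c) n)) :
    powMapG d q c (Fin n → ℂ) x ∈ hwSpace lam (plethAct (q * d) c n) := by
  intro g hg
  have h1 := LinearMap.congr_fun (powMapG_equivariant d q c (Matrix.toLin' g)) x
  rw [LinearMap.comp_apply, LinearMap.comp_apply] at h1
  have h2 : symMap d (symMap (q * c) (Matrix.toLin' g)) x = (∏ i, g i i ^ lam i) • x := hx g hg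
  rw [h2, map_smul] at h1
  exact h1.symm

/-- The forms of highest weight vectors of weight `lam` in `Sym^d(Sym^{qc} ℂ^n)` which vanish on
all `q`-th powers of forms of degree `c` vanish. -/
def FormsVanishG (d q c n : ℕ) (lam : Fin n → ℕ) : Prop :=
  ∀ l : (Fin d → Fin (q * c) → (Fin n → ℂ)) →₀ ℂ,
    elOf l ∈ hwSpace lam (plethAct d (q * c) n) →
    (∀ G ∈ linS n ^ c, formOf l (fun _ => G ^ q) = 0) →
    ∀ P : Fin d → MvPolynomial (Fin n) ℂ, (∀ i, P i ∈ linS n ^ (q * c)) → formOf l P = 0

/-- Then the power map is injective on the highest weight vectors of weight `lam`. -/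
theorem powMapG_injOn_of (d q c n : ℕ) (lam : Fin n → ℕ) (h : FormsVanishG d q c n lam)
    (x : Sym[ℂ]^d (Sym[ℂ]^(q * c) (Fin n → ℂ))) (hx : x ∈ hwSpace lam (plethAct d (q * c) n))
    (h0 : powMapG d q c (Fin n → ℂ) x = 0) : x = 0 := by
  obtain ⟨l, rfl⟩ := exists_elOf x
  exact elOf_eq_zero l (h l hx (fun G hG => formOf_powG l h0 G hG))

theorem plethMultG_le_of (d q c n : ℕ) (lam : Fin n → ℕ) (h : FormsVanishG d q c n lam) :
    plethMult d (q * c) n lam ≤ plethMult (q * d) c n lam :=
  finrank_le_of_inj (powMapG d q c (Fin n → ℂ)) _ _ (fun x hx => powMapG_hwSpace lam x hx)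
    (fun x hx h0 => powMapG_injOn_of d q c n lam h x hx h0)

end Form

end Vale.Agent.P181.H867
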