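import Vale.Agent.P181.SZA.Bonus
import Vale.Agent.P181.SZ.Spec2
import Vale.Agent.P181.H59.Fin10

set_option autoImplicit false

/-!
# P181: shapes with a long third row and few cells below the first row, for all `b ≥ 4 a`

The condition of `SZA.Bonus` on the lower rows is removed by means of the landed class
`Σ min (b, λ_i) ≥ b ^ 2 a ^ ε / (b - a)`.
-/

namespace Vale.Agent.P181.H867

open Filter
open Vale.Agent.P181.SZ Vale.Agent.P181.SZA.H376
open Vale.Agent.P181.T4 (ex low ex_of_lt ex_anti)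
open Vale.Agent.P181.T7 (cells below below_cells cells_pad)
open Vale.Agent.P181.H280 (plethMult)

/-- The number of rows of length at least `b`. -/
lemma rows_split {n b : ℕ} (hb : 0 < b) (lam : Fin n → ℕ) (hanti : Antitone lam) :
    ∃ k : ℕ, k * b ≤ ∑ i, min b (lam i) ∧ ex lam k < b ∧
      ∀ R, k ≤ R → cells R lam ≤ ∑ i, min b (lam i) := by
  have hex : ∃ k, ex lam k < b := ⟨n, by rw [ex, dif_neg (by omega)]; exact hb⟩
  refine ⟨Nat.find hex, ?_, Nat.find_spec hex, fun R hR => ?_⟩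
  · obtain ⟨k, hk⟩ : ∃ k, k = Nat.find hex := ⟨_, rfl⟩
    have h1 : ∀ i, i < k → b ≤ ex lam i := by
      intro i hi
      rw [hk] at hi
      exact not_lt.1 (Nat.find_min hex hi)
    have hkn : k ≤ n := by
      rw [hk]
      exact Nat.find_min' hex (by rw [ex, dif_neg (by omega)]; exact hb)
    rw [← hk]
    have h2 : ∑ i : Fin n, (if (i : ℕ) < k then b else 0) ≤ ∑ i, min b (lam i) := by
      apply Finset.sum_le_sum
      intro i _
      split_ifs with h3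
      · have h4 := h1 i h3
        rw [ex_of_lt lam i.2] at h4
        exact le_min le_rfl h4
      · exact Nat.zero_le _
    refine le_trans (le_of_eq ?_) h2
    rw [Finset.sum_ite, Finset.sum_const_zero, add_zero, Finset.sum_const, smul_eq_mul]
    congr 1
    rw [Fin.card_filter_val_lt]
    omega
  · unfold cells
    apply Finset.sum_le_sum
    intro i _
    split_ifs with h3
    · have h4 : ex lam (i : ℕ) ≤ ex lam (Nat.find hex) := ex_anti hanti (hR.trans h3)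
      have h5 := Nat.find_spec hex
      rw [ex_of_lt lam i.2] at h4
      have h6 : lam i = lam ⟨(i : ℕ), i.2⟩ := rfl
      exact le_min (by omega) le_rfl
    · exact Nat.zero_le _

/-- **`b ≥ 4 a`, third row at least `a ^ (1 + ε)`, at most `a ^ (2 - ε)` cells below row one.** -/
theorem bonus2 (hF : FinB) (hM : MainS) (ε : ℝ) (hε : 0 < ε) : ∃ a₀ : ℕ, ∀ a b : ℕ, a₀ ≤ a →
    4 * a ≤ b → ∀ (n : ℕ) (lam : Fin n → ℕ),
    (a : ℝ) ^ (1 + ε) ≤ ((ex lam 2 : ℕ) : ℝ) → ((cells 1 lam : ℕ) : ℝ) ≤ (a : ℝ) ^ (2 - ε) →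
    plethMult a b n lam ≤ plethMult b a n lam := by
  obtain ⟨e, he⟩ : ∃ e, e = min ε 1 := ⟨_, rfl⟩
  have he0 : 0 < e := by
    rw [he]
    exact lt_min hε one_pos
  have heε : e ≤ ε := by
    rw [he]
    exact min_le_left _ _
  have he1 : e ≤ 1 := by
    rw [he]
    exact min_le_right _ _
  obtain ⟨δ, hδ⟩ : ∃ δ, δ = e / 100 := ⟨_, rfl⟩
  have hδ0 : 0 < δ := by
    rw [hδ]
    positivity
  obtain ⟨η, hη⟩ : ∃ η, η = δ / 10 := ⟨_, rfl⟩
  have hη0 : 0 < η := by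
    rw [hη]
    positivity
  obtain ⟨K, hK⟩ : ∃ K : ℕ, K = ⌈3 / δ⌉₊ := ⟨_, rfl⟩
  have hK3 : 3 ≤ δ * K := by
    have h1 : 3 / δ ≤ K := by
      rw [hK]
      exact Nat.le_ceil _
    rw [div_le_iff₀ hδ0] at h1
    linarith
  have hlim : ∀ x : ℝ, 0 < x → Tendsto (fun a : ℕ => (a : ℝ) ^ x) atTop atTop := fun x hx =>
    (tendsto_rpow_atTop hx).comp tendsto_natCast_atTop_atTop
  have hlog : ∀ᶠ a : ℕ in atTop, 2000 * Real.log a ≤ (a : ℝ) ^ (9 * η) := by
    have h1 := (isLittleO_log_rpow_atTop (by positivity : 0 < 9 * η)).comp_tendsto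
      tendsto_natCast_atTop_atTop
    have h2 := h1.def (show (0 : ℝ) < 1 / 2000 by positivity)
    filter_upwards [h2, eventually_ge_atTop 1] with a ha ha1
    have h3 : (1 : ℝ) ≤ a := by exact_mod_cast ha1
    have h4 : 0 ≤ Real.log a := Real.log_nonneg h3
    simp only [Function.comp_apply, Real.norm_eq_abs] at ha
    rw [abs_of_nonneg h4, abs_of_nonneg (by positivity : (0 : ℝ) ≤ (a : ℝ) ^ (9 * η))] at ha
    linarith
  obtain ⟨a₁, ha₁⟩ := H59.fin10 η hη0
  obtain ⟨a₂, ha₂⟩ := eventually_atTop.1 (hM η hη0)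
  obtain ⟨a₀, ha₀⟩ := eventually_atTop.1 (((hlim (6 * η) (by positivity)).eventually_ge_atTop
    (4 * 10 ^ 6 * 625 : ℝ)).and (((hlim δ hδ0).eventually_ge_atTop (1000 * (K : ℝ))).and
      (hlog.and ((eventually_ge_atTop (4 * 2 ^ K)).and ((eventually_ge_atTop 1).and
        ((eventually_ge_atTop a₁).and (eventually_ge_atTop a₂)))))))
  refine ⟨a₀, fun a b ha hab N lam h3 hw => ?_⟩
  obtain ⟨g1, g2, g3, g4, g5, g6, g7⟩ := ha₀ a ha
  by_cases hbig : (a : ℝ) ^ (1 + η) ≤ b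
  · exact ha₂ a g7 b hbig N lam
  push Not at hbig
  by_cases hmin : (b : ℝ) ^ 2 * (a : ℝ) ^ η ≤ ((b : ℝ) - a) * ∑ i, ((min b (lam i) : ℕ) : ℝ)
  · exact ha₁ a g6 b N lam (by omega) (Or.inl hmin)
  push Not at hmin
  by_cases hz : plethMult a b N lam = 0
  · rw [hz]
    exact Nat.zero_le _
  obtain ⟨hanti, hsum, _⟩ := H530.zero_stmt a b N lam hz
  have hA1 : (1 : ℝ) ≤ a := by exact_mod_cast g5
  have hA0 : (0 : ℝ) < a := by linarith
  have hb4 : 4 * (a : ℝ) ≤ b := by exact_mod_cast hab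
  have hb0 : (0 : ℝ) < b := by linarith
  have hbn : 0 < b := by omega
  obtain ⟨s, hs⟩ : ∃ s : ℕ, s = ∑ i, min b (lam i) := ⟨_, rfl⟩
  obtain ⟨p, hp⟩ : ∃ p : ℝ, p = (a : ℝ) ^ η := ⟨_, rfl⟩
  have hp1 : 1 ≤ p := by
    rw [hp]
    exact Real.one_le_rpow hA1 hη0.le
  have hsb : (s : ℝ) ≤ 4 / 3 * b * p := by
    have h1 : ((b : ℝ) - a) * s < (b : ℝ) ^ 2 * p := by
      rw [hs, hp]
      push_cast
      push_cast at hmin
      exact hmin
    have h2 : 3 / 4 * (b : ℝ) ≤ b - a := by linarith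
    have h3' : 3 / 4 * (b : ℝ) * s ≤ (b : ℝ) ^ 2 * p :=
      (mul_le_mul_of_nonneg_right h2 (Nat.cast_nonneg s)).trans h1.le
    have h4 : (b : ℝ) * (3 / 4 * s) ≤ b * (b * p) := by nlinarith
    have h5 := le_of_mul_le_mul_left h4 hb0
    linarith
  obtain ⟨k₁, hk₁, hk₂, hk₃⟩ := rows_split hbn lam hanti
  rw [← hs] at hk₁
  have hk1 : (k₁ : ℝ) ≤ 4 / 3 * p := by
    have h1 : (k₁ : ℝ) * b ≤ s := by exact_mod_cast hk₁
    have h2 : (b : ℝ) * k₁ ≤ b * (4 / 3 * p) := by linarith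
    exact le_of_mul_le_mul_left h2 hb0
  obtain ⟨R, hRdef⟩ : ∃ R : ℕ, R = max 3 k₁ := ⟨_, rfl⟩
  have hR3 : 3 ≤ R := by
    rw [hRdef]
    exact le_max_left _ _
  have hkR : k₁ ≤ R := by
    rw [hRdef]
    exact le_max_right _ _
  have hR5 : (R : ℝ) ≤ 5 * p := by
    have h1 : R ≤ 3 + k₁ := by omega
    have h2 : (R : ℝ) ≤ 3 + k₁ := by exact_mod_cast h1
    linarith
  have hR0 : (0 : ℝ) ≤ R := Nat.cast_nonneg R
  have hcR : (cells R lam : ℝ) ≤ 4 / 3 * b * p := by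
    have h1 : cells R lam ≤ s := by
      rw [hs]
      exact hk₃ R hkR
    have h2 : (cells R lam : ℝ) ≤ s := by exact_mod_cast h1
    linarith
  -- the number of positive rows
  have hex : ∃ k, k = N ∨ ex lam k = 0 := ⟨N, Or.inl rfl⟩
  obtain ⟨k, hkN, hk1', hk2⟩ : ∃ k, k ≤ N ∧ (k = N ∨ ex lam k = 0) ∧
      ∀ i, i < k → 0 < ex lam i := by
    refine ⟨Nat.find hex, Nat.find_min' hex (Or.inl rfl), Nat.find_spec hex, fun i hi => ?_⟩
    have h1 := Nat.find_min hex hi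
    push Not at h1
    exact Nat.pos_of_ne_zero h1.2
  obtain ⟨n', hn'R, hn0, hn1⟩ : ∃ n', R < n' ∧ (N ≤ n' ∨ ex lam n' = 0) ∧
      (n' = k ∨ n' = R + 1) := by
    by_cases h : R < k
    · refine ⟨k, h, ?_, Or.inl rfl⟩
      rcases hk1' with h1 | h1
      · exact Or.inl h1.symm.le
      · exact Or.inr h1
    · refine ⟨R + 1, Nat.lt_succ_self _, ?_, Or.inr rfl⟩
      rcases hk1' with h1 | h1
      · exact Or.inl (by omega)
      · right
        have h2 : ex lam (R + 1) ≤ ex lam k := ex_anti hanti (by omega)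
        omega
  obtain ⟨mu, hmu1, hmu2, hmu3⟩ := resize n' lam hanti hn0
  have hz' : plethMult a b n' mu ≠ 0 := by
    rw [hmu3]
    exact hz
  obtain ⟨hanti', hsum', _⟩ := H530.zero_stmt a b n' mu hz'
  rw [← hmu3 a b, ← hmu3 b a]
  -- the numbers
  obtain ⟨q, hq⟩ : ∃ q : ℝ, q = (a : ℝ) ^ δ := ⟨_, rfl⟩
  have hqn : ∀ n : ℕ, q ^ n = (a : ℝ) ^ (δ * n) := by
    intro n
    rw [hq, Real.rpow_mul hA0.le, Real.rpow_natCast]
  have hpn : ∀ n : ℕ, p ^ n = (a : ℝ) ^ (η * n) := by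
    intro n
    rw [hp, Real.rpow_mul hA0.le, Real.rpow_natCast]
  have hqp : q = p ^ 10 := by
    rw [hpn, hq, hη]
    congr 1
    push_cast
    ring
  have hq1 : 1 ≤ q := by
    rw [hqp]
    exact one_le_pow₀ hp1
  have hq100 : q ^ 100 = (a : ℝ) ^ e := by
    rw [hqn, hδ]
    congr 1
    push_cast
    ring
  have hAq : q ^ 80 ≤ a := by
    calc q ^ 80 ≤ q ^ 100 := pow_le_pow_right₀ hq1 (by norm_num)
      _ = (a : ℝ) ^ e := hq100
      _ ≤ (a : ℝ) ^ (1 : ℝ) := Real.rpow_le_rpow_of_exponent_le hA1 he1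
      _ = a := Real.rpow_one _
  have hl2' : (a : ℝ) * q ^ 100 ≤ ((ex lam 2 : ℕ) : ℝ) := by
    refine le_trans ?_ h3
    rw [hq100, Real.rpow_add hA0, Real.rpow_one]
    exact mul_le_mul_of_nonneg_left (Real.rpow_le_rpow_of_exponent_le hA1 heε) hA0.le
  have hl2 : (a : ℝ) * q ^ 79 ≤ ((ex lam 2 : ℕ) : ℝ) :=
    le_trans (mul_le_mul_of_nonneg_left (pow_le_pow_right₀ hq1 (by norm_num)) hA0.le) hl2'
  have hw' : ((cells 1 lam : ℕ) : ℝ) * q ^ 60 ≤ (a : ℝ) ^ 2 := by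
    calc ((cells 1 lam : ℕ) : ℝ) * q ^ 60 ≤ (a : ℝ) ^ (2 - ε) * q ^ 60 :=
          mul_le_mul_of_nonneg_right hw (by positivity)
      _ ≤ (a : ℝ) ^ (2 - ε) * q ^ 100 :=
          mul_le_mul_of_nonneg_left (pow_le_pow_right₀ hq1 (by norm_num)) (by positivity)
      _ = (a : ℝ) ^ (2 - ε + e) := by rw [hq100, ← Real.rpow_add hA0]
      _ ≤ (a : ℝ) ^ (2 : ℝ) := Real.rpow_le_rpow_of_exponent_le hA1 (by linarith)
      _ = (a : ℝ) ^ 2 := by rw [← Real.rpow_natCast]; norm_num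
  have hbA : (b : ℝ) ≤ a * p := by
    refine hbig.le.trans ?_
    rw [Real.rpow_add hA0, Real.rpow_one, hp]
  have hc : ((cells R lam : ℕ) : ℝ) * q ^ 80 ≤ ((ex lam 2 : ℕ) : ℝ) := by
    refine le_trans ?_ hl2'
    have h1 : (cells R lam : ℝ) ≤ a * q := by
      have hp6 : 4 / 3 ≤ p ^ 6 := by
        have : (4 * 10 ^ 6 * 625 : ℝ) ≤ p ^ 6 := by
          rw [hpn]
          have h9 : (η * ((6 : ℕ) : ℝ)) = 6 * η := by push_cast; ring
          rw [h9]
          exact g1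
        linarith
      calc (cells R lam : ℝ) ≤ 4 / 3 * b * p := hcR
        _ ≤ 4 / 3 * (a * p) * p := by
            apply mul_le_mul_of_nonneg_right _ (by linarith)
            linarith
        _ = a * (4 / 3 * p ^ 2) := by ring
        _ ≤ a * (p ^ 6 * p ^ 4) := by
            apply mul_le_mul_of_nonneg_left _ hA0.le
            exact mul_le_mul hp6 (pow_le_pow_right₀ hp1 (by norm_num)) (by positivity)
              (by positivity)
        _ = a * q := by rw [hqp]; ring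
    calc (cells R lam : ℝ) * q ^ 80 ≤ a * q * q ^ 80 :=
          mul_le_mul_of_nonneg_right h1 (by positivity)
      _ = a * q ^ 81 := by ring
      _ ≤ a * q ^ 100 :=
          mul_le_mul_of_nonneg_left (pow_le_pow_right₀ hq1 (by norm_num)) hA0.le
  have hp6' : (4 * 10 ^ 6 * 625 : ℝ) ≤ p ^ 6 := by
    rw [hpn]
    have h9 : (η * ((6 : ℕ) : ℝ)) = 6 * η := by push_cast; ring
    rw [h9]
    exact g1
  have hg1 : 4 * 10 ^ 6 * (R : ℝ) ^ 4 ≤ q := by
    calc 4 * 10 ^ 6 * (R : ℝ) ^ 4 ≤ 4 * 10 ^ 6 * (5 * p) ^ 4 := by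
          apply mul_le_mul_of_nonneg_left _ (by norm_num)
          exact pow_le_pow_left₀ hR0 hR5 4
      _ = (4 * 10 ^ 6 * 625) * p ^ 4 := by ring
      _ ≤ p ^ 6 * p ^ 4 := mul_le_mul_of_nonneg_right hp6' (by positivity)
      _ = q := by rw [hqp]; ring
  have hg3 : 400 * (R : ℝ) * Real.log a ≤ q := by
    have h4 : 0 ≤ Real.log a := Real.log_nonneg hA1
    calc 400 * (R : ℝ) * Real.log a ≤ 400 * (5 * p) * Real.log a := by
          apply mul_le_mul_of_nonneg_right _ h4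
          linarith
      _ = p * (2000 * Real.log a) := by ring
      _ ≤ p * p ^ 9 := by
          apply mul_le_mul_of_nonneg_left _ (by linarith)
          rw [hpn]
          have h9 : (η * ((9 : ℕ) : ℝ)) = 9 * η := by push_cast; ring
          rw [h9]
          exact g3
      _ = q := by rw [hqp]; ring
  have hKq : 4 * (a : ℝ) ^ 2 ≤ (q / 2) ^ K := by
    rw [div_pow, le_div_iff₀ (by positivity), hqn]
    have h1 : (4 * 2 ^ K : ℝ) ≤ a := by exact_mod_cast g4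
    calc 4 * (a : ℝ) ^ 2 * 2 ^ K = (4 * 2 ^ K) * (a : ℝ) ^ 2 := by ring
      _ ≤ a * (a : ℝ) ^ 2 := mul_le_mul_of_nonneg_right h1 (by positivity)
      _ = (a : ℝ) ^ (3 : ℝ) := by
          rw [show (3 : ℝ) = ((3 : ℕ) : ℝ) by norm_num, Real.rpow_natCast]
          ring
      _ ≤ (a : ℝ) ^ (δ * K) := Real.rpow_le_rpow_of_exponent_le hA1 hK3
  have h7 : 2 * ex lam 2 ≤ cells 1 lam := by
    rw [← below_cells]
    have e1 := below_succ (R := 1) lam
    have e2 := below_succ (R := 2) lam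
    have e3 : ex lam 2 ≤ ex lam 1 := ex_anti hanti (by norm_num)
    norm_num at e1 e2
    omega
  obtain ⟨X, Z, c0, c1, c2, c3, c4, c5, c6, c7, c8, c9, c10, c11, c12, c13⟩ :=
    num_bonus (A := a) (q := q) (a := a) (b := b) (R := R) (K := K) (l2 := ex lam 2)
      (lR := ex lam R) (cR := cells R lam) (w := cells 1 lam) rfl hR3 hg1
      (by rw [hq]; exact g2) hAq hab hl2 hw' hc (ex_le_cells _ _) h7 hKq hg3
  have hK1 : 1 ≤ K := by
    by_contra h
    have : K = 0 := by omega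
    rw [this] at hK3
    norm_num at hK3
  apply hF a b n' R X Z K (cells 1 lam) mu hanti' hsum' ?_ hR3 hn'R
    (by rw [← hmu2 1]; rfl) c1 c2 hK1 c3 c4 c5 (by rw [hmu1]; exact c6) (by rw [hmu1]; exact c7)
    (by rw [hmu1, hmu1]; exact c8) (by rw [hmu1, sum_low, hmu2]; exact c9) c10 c11 c12 hab c13
  rcases hn1 with h | h
  · left
    intro i
    have h1 := hk2 i (by have := i.2; omega)
    rw [← hmu1, ex_of_lt mu i.2] at h1
    exact h1
  · right
    omega

end Vale.Agent.P181.H867
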