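import Vale.Agent.P181.H867.Types
import Vale.Agent.P181.H536.HW

set_option autoImplicit false

/-!
# Only deep types matter for `Inter`
-/

open scoped TensorProduct

namespace Vale.Agent.P181.H867

open Vale.Agent.P181 Vale.Agent.P181.H280 MvPolynomial

/-- Types with at most `(q - 1)(a - 1)` boxes below the second row do not occur in the kernel of
the canonical map on `Sym^a(Sym^{q(a-1)})`. -/
theorem interHW_of_shallow {a q n : ℕ} (ha : 2 ≤ a) (hq : 1 ≤ q) (lam : Fin (n + 2) → ℕ)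
    (h : ∑ i : Fin n, lam i.succ.succ ≤ (q - 1) * (a - 1)) : InterHW a q (n + 2) lam := by
  intro x hx hH _
  refine H536.foulkesHowe_injOn (N := a - 1) (by omega) (by omega) lam ?_ x hx hH
  obtain ⟨q', rfl⟩ : ∃ q', q = q' + 1 := ⟨q - 1, by omega⟩
  rw [Nat.add_sub_cancel] at h
  calc (∑ i : Fin n, lam i.succ.succ) + (a - 1) ≤ q' * (a - 1) + (a - 1) := by omega
    _ = (q' + 1) * (a - 1) := by ring

/-- `Inter` from the deep types only. -/
theorem inter_of_deep {a q n : ℕ} (ha : 2 ≤ a) (hq : 1 ≤ q)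
    (h : ∀ lam : Fin (n + 2) → ℕ, (q - 1) * (a - 1) < ∑ i : Fin n, lam i.succ.succ →
      InterHW a q (n + 2) lam) : Inter a q (n + 2) := by
  apply inter_of_types
  intro lam
  by_cases h1 : ∑ i : Fin n, lam i.succ.succ ≤ (q - 1) * (a - 1)
  · exact interHW_of_shallow ha hq lam h1
  · exact h lam (by omega)

/-- Foulkes' inequality for `b = q a` from the deep types of `Sym^a(Sym^{q(a-1)})`. -/
theorem foulkes_of_deep {a q n : ℕ} (ha : 2 ≤ a) (hq : 1 ≤ q)
    (h : ∀ lam : Fin (n + 2) → ℕ, (q - 1) * (a - 1) < ∑ i : Fin n, lam i.succ.succ →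
      InterHW a q (n + 2) lam) (lam : Fin (n + 2) → ℕ) :
    plethMult a (q * a) (n + 2) lam ≤ plethMult (q * a) a (n + 2) lam :=
  foulkes_of_inter (by omega) (inter_of_deep ha hq h) lam

/-- `InterHW` in terms of forms. -/
theorem interHW_of_forms {a q n : ℕ} (lam : Fin n → ℕ)
    (h : ∀ l : (Fin a → Fin (q * (a - 1)) → (Fin n → ℂ)) →₀ ℂ,
      elOf l ∈ hwSpace lam (plethAct a (q * (a - 1)) n) → IsSymm (formOf l) →
      IsK (linS n) (q * (a - 1)) (formOf l) →
      (∀ G ∈ linS n ^ (a - 1), formOf l (fun _ => G ^ q) = 0) →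
      ∀ P : Fin a → MvPolynomial (Fin n) ℂ, (∀ i, P i ∈ linS n ^ (q * (a - 1))) →
        formOf l P = 0) : InterHW a q n lam := by
  intro x hx hH hA
  obtain ⟨l, rfl⟩ := exists_elOf x
  exact elOf_eq_zero l (h l hx (formOf_symm l) (H536.isK_formOf l hH)
    (fun G hG => formOf_powG l hA G hG))

end Vale.Agent.P181.H867
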