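import Vale.Agent.P181.H867.Inter
import Vale.Agent.P181.H627.LemmaR
import Vale.Agent.P181.H365.FhPow

set_option autoImplicit false

open scoped TensorProduct

namespace Vale.Agent.P181.H867

open Vale.Agent.P181 Vale.Agent.P181.H280 MvPolynomial

variable {n : ℕ}

lemma rPrime {d k q : ℕ} (hk : q * (d - 1) ≤ k) : RPrime n d k q :=
  fun F h P hP => H627.lemmaR hk F h P hP

lemma powKer (a q n : ℕ) : PowKer a q n := fun x hx => H365.fh_pow a q x hx

/-- **Foulkes' inequality for `b = q a` from the vanishing of the joint kernel in degree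
`q (a - 1)`.** -/
theorem foulkes_of_inter {a q : ℕ} (ha : 1 ≤ a) (hI : Inter a q n) (lam : Fin n → ℕ) :
    plethMult a (q * a) n lam ≤ plethMult (q * a) a n lam :=
  foulkes_of_inter_aux ha (rPrime le_rfl) (powKer a q n) hI lam

end Vale.Agent.P181.H867
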