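import Vale.Agent.P181.H867.Joint

set_option autoImplicit false

open scoped TensorProduct

namespace Vale.Agent.P181.H867

open Vale.Agent.P181 Vale.Agent.P181.H280 MvPolynomial

variable {n : ℕ}

/-- Lemma R': every form of degree `k + q` in each of `d` slots is a combination of the products
of forms of degree `k` by `∏ l(t_i)^q`. -/
def RPrime (n d k q : ℕ) : Prop :=
  ∀ F : MultilinearMap ℂ (fun _ : Fin d => MvPolynomial (Fin n) ℂ) ℂ,
    (∀ l ∈ linS n, ∀ P : Fin d → MvPolynomial (Fin n) ℂ, (∀ i, P i ∈ linS n ^ k) →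
      F (fun i => l ^ q * P i) = 0) →
    ∀ P : Fin d → MvPolynomial (Fin n) ℂ, (∀ i, P i ∈ linS n ^ (k + q)) → F P = 0

/-- The power map sends the kernel of the canonical map to the kernel of the canonical map in the
other direction. -/
def PowKer (a q n : ℕ) : Prop :=
  ∀ x : Sym[ℂ]^a (Sym[ℂ]^(q * a) (Fin n → ℂ)), foulkesHowe a (q * a) (Fin n → ℂ) x = 0 →
    foulkesHowe (q * a) a (Fin n → ℂ) (powMap a q (Fin n → ℂ) x) = 0

/-- No nonzero symmetric form in `a` slots of degree `q (a - 1)` vanishes on the diagonal at all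
`q`-th powers and at all products of linear forms. -/
def Inter (a q n : ℕ) : Prop :=
  ∀ F : MultilinearMap ℂ (fun _ : Fin a => MvPolynomial (Fin n) ℂ) ℂ, IsSymm F →
    (∀ G ∈ linS n ^ (a - 1), F (fun _ => G ^ q) = 0) → IsK (linS n) (q * (a - 1)) F →
    ∀ P : Fin a → MvPolynomial (Fin n) ℂ, (∀ i, P i ∈ linS n ^ (q * (a - 1))) → F P = 0

/-- The joint kernel of the canonical map and the power map in degree `q a` embeds, for every
linear form, in the joint kernel in degree `q (a - 1)`. -/
theorem forms_zero {a q : ℕ} (ha : 1 ≤ a) (hR : RPrime n a (q * (a - 1)) q) (hI : Inter a q n)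
    (F : MultilinearMap ℂ (fun _ : Fin a => MvPolynomial (Fin n) ℂ) ℂ) (hs : IsSymm F)
    (hG : ∀ G ∈ linS n ^ a, F (fun _ => G ^ q) = 0) (hK : IsK (linS n) (q * a) F)
    (P : Fin a → MvPolynomial (Fin n) ℂ) (hP : ∀ i, P i ∈ linS n ^ (q * a)) : F P = 0 := by
  obtain ⟨c, rfl⟩ : ∃ c, a = c + 1 := ⟨a - 1, by omega⟩
  have hqa : q * (c + 1) = q * c + q := by ring
  have hc : c + 1 - 1 = c := rfl
  refine hR F ?_ P (fun i => by rw [hc, ← hqa]; exact hP i)
  intro l hl Q hQ
  have h1 := hI (mulArg F (fun _ => l ^ q)) (hs.mulArg_const _) ?_ ?_ Q hQ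
  · rw [mulArg_apply] at h1
    exact h1
  · intro G hG'
    rw [mulArg_apply]
    have h2 := hG (l * G) (by
      rw [pow_succ']
      exact Submodule.mul_mem_mul hl hG')
    simp only [mul_pow] at h2
    exact h2
  · intro m hm hmL
    rw [mulArg_apply]
    have h2 := hK (Multiset.replicate q l + m) (by
      rw [Multiset.card_add, Multiset.card_replicate, hm, hc, hqa, add_comm]) (by
      intro x hx
      rcases Multiset.mem_add.1 hx with h | h
      · rw [Multiset.eq_of_mem_replicate h]
        exact hl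
      · exact hmL x h)
    simp only [Multiset.prod_add, Multiset.prod_replicate] at h2
    exact h2

/-- The joint kernel of the canonical map and the power map is zero. -/
theorem joint_zero {a q : ℕ} (ha : 1 ≤ a) (hR : RPrime n a (q * (a - 1)) q) (hI : Inter a q n)
    (x : Sym[ℂ]^a (Sym[ℂ]^(q * a) (Fin n → ℂ))) (hH : foulkesHowe a (q * a) (Fin n → ℂ) x = 0)
    (hA : powMap a q (Fin n → ℂ) x = 0) : x = 0 := by
  obtain ⟨l, rfl⟩ := exists_elOf x
  apply elOf_eq_zero
  intro P hP
  exact forms_zero ha hR hI (formOf l) (formOf_symm l) (fun G hG => formOf_pow l hA G hG)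
    (H536.isK_formOf l hH) P hP

/-- **Foulkes' inequality for `b = q a` from the vanishing of the joint kernel in degree
`q (a - 1)`.** -/
theorem foulkes_of_inter_aux {a q : ℕ} (ha : 1 ≤ a) (hR : RPrime n a (q * (a - 1)) q)
    (hPK : PowKer a q n) (hI : Inter a q n) (lam : Fin n → ℕ) :
    plethMult a (q * a) n lam ≤ plethMult (q * a) a n lam :=
  plethMult_le_joint lam (powMap a q (Fin n → ℂ)) (fun x hx => powMap_hwSpace lam x hx)
    (fun x _ hx => hPK x hx) (fun x _ hH hA => joint_zero ha hR hI x hH hA)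

end Vale.Agent.P181.H867
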