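import Vale.Agent.P181.H867.Pos
import Vale.Agent.P181.H867.PowG
import Vale.Agent.P181.H536.HW

set_option autoImplicit false

open scoped TensorProduct

namespace Vale.Agent.P181.H867

open Vale.Agent.P181 Vale.Agent.P181.H280 MvPolynomial

/-! ### Compatible pairs: dimensions -/

lemma finrank_le_joint_aux {S T : Type*} [AddCommGroup S] [Module ℂ S] [AddCommGroup T]
    [Module ℂ T] [Module.Finite ℂ S] [Module.Finite ℂ T] (h A : S →ₗ[ℂ] T) (h' : T →ₗ[ℂ] S)
    (h1 : ∀ x, h' (h x) = 0 → h x = 0) (h2 : ∀ x, h x = 0 → h' (A x) = 0)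
    (h3 : ∀ x, h x = 0 → A x = 0 → x = 0) : Module.finrank ℂ S ≤ Module.finrank ℂ T := by
  have e1 := LinearMap.finrank_range_add_finrank_ker h
  -- the image of the kernel under `A`
  have e2 : Module.finrank ℂ (Submodule.map A (LinearMap.ker h)) =
      Module.finrank ℂ (LinearMap.ker h) := by
    have hinj : Function.Injective (A.domRestrict (LinearMap.ker h)) := by
      rw [injective_iff_map_eq_zero]
      intro x hx
      exact Subtype.ext (h3 x x.2 hx)
    have h4 : Submodule.map A (LinearMap.ker h) =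
        LinearMap.range (A.domRestrict (LinearMap.ker h)) := by
      rw [LinearMap.range_domRestrict]
    rw [h4]
    exact LinearMap.finrank_range_of_inj hinj
  have e3 : LinearMap.range h ⊓ Submodule.map A (LinearMap.ker h) = ⊥ := by
    rw [eq_bot_iff]
    rintro _ ⟨⟨x, rfl⟩, ⟨y, hy, hxy⟩⟩
    have h5 : h' (A y) = 0 := h2 y hy
    rw [hxy] at h5
    exact h1 x h5
  have e4 := Submodule.finrank_sup_add_finrank_inf_eq (LinearMap.range h)
    (Submodule.map A (LinearMap.ker h))
  rw [e3, finrank_bot, add_zero] at e4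
  have e5 := Submodule.finrank_le (LinearMap.range h ⊔ Submodule.map A (LinearMap.ker h))
  omega

/-- **Compatible pairs.** If `H' H x = 0` implies `H x = 0`, `A` maps the kernel of `H` to the
kernel of `H'`, and the kernels of `H` and `A` meet in `0`, all on suitable subspaces, then the
dimension inequality holds. -/
lemma finrank_le_joint {M N : Type} [AddCommMonoid M] [Module ℂ M] [AddCommMonoid N] [Module ℂ N]
    [Module.Finite ℂ M] [Module.Finite ℂ N] (h A : M →ₗ[ℂ] N) (h' : N →ₗ[ℂ] M)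
    (S : Submodule ℂ M) (T : Submodule ℂ N) (hST : ∀ x ∈ S, h x ∈ T) (AST : ∀ x ∈ S, A x ∈ T)
    (hTS : ∀ y ∈ T, h' y ∈ S)
    (h1 : ∀ x ∈ S, h' (h x) = 0 → h x = 0) (h2 : ∀ x ∈ S, h x = 0 → h' (A x) = 0)
    (h3 : ∀ x ∈ S, h x = 0 → A x = 0 → x = 0) :
    Module.finrank ℂ S ≤ Module.finrank ℂ T := by
  letI := Module.addCommMonoidToAddCommGroup ℂ (M := M)
  letI := Module.addCommMonoidToAddCommGroup ℂ (M := N)
  refine finrank_le_joint_aux ((h.domRestrict S).codRestrict T (fun x => hST x x.2))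
    ((A.domRestrict S).codRestrict T (fun x => AST x x.2))
    ((h'.domRestrict T).codRestrict S (fun x => hTS x x.2)) ?_ ?_ ?_
  · intro x hx
    exact Subtype.ext (h1 x x.2 (congrArg Subtype.val hx))
  · intro x hx
    exact Subtype.ext (h2 x x.2 (congrArg Subtype.val hx))
  · intro x hx hA
    exact Subtype.ext (h3 x x.2 (congrArg Subtype.val hx) (congrArg Subtype.val hA))

variable {n : ℕ}

lemma fh_hwSpace {a b : ℕ} (lam : Fin n → ℕ)
    (x : Sym[ℂ]^a (Sym[ℂ]^b (Fin n → ℂ))) (hx : x ∈ hwSpace lam (plethAct a b n)) :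
    foulkesHowe a b (Fin n → ℂ) x ∈ hwSpace lam (plethAct b a n) := by
  intro g hg
  have h1 := LinearMap.congr_fun (foulkesHowe_equivariant a b (Matrix.toLin' g)) x
  rw [LinearMap.comp_apply, LinearMap.comp_apply] at h1
  have h2 : symMap a (symMap b (Matrix.toLin' g)) x = (∏ i, g i i ^ lam i) • x := hx g hg
  rw [h2, map_smul] at h1
  exact h1.symm

/-- **The joint kernel principle, for any second equivariant map.** -/
theorem plethMult_le_joint {a b : ℕ} (lam : Fin n → ℕ)
    (A : Sym[ℂ]^a (Sym[ℂ]^b (Fin n → ℂ)) →ₗ[ℂ] Sym[ℂ]^b (Sym[ℂ]^a (Fin n → ℂ)))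
    (hA : ∀ x ∈ hwSpace lam (plethAct a b n), A x ∈ hwSpace lam (plethAct b a n))
    (hK : ∀ x ∈ hwSpace lam (plethAct a b n), foulkesHowe a b (Fin n → ℂ) x = 0 →
      foulkesHowe b a (Fin n → ℂ) (A x) = 0)
    (hJ : ∀ x ∈ hwSpace lam (plethAct a b n), foulkesHowe a b (Fin n → ℂ) x = 0 → A x = 0 →
      x = 0) : plethMult a b n lam ≤ plethMult b a n lam :=
  finrank_le_joint (foulkesHowe a b (Fin n → ℂ)) A (foulkesHowe b a (Fin n → ℂ))
    (hwSpace lam (plethAct a b n)) (hwSpace lam (plethAct b a n))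
    (fun x hx => fh_hwSpace lam x hx) hA (fun y hy => fh_hwSpace lam y hy)
    (fun x _ hx => fh_fh x hx) hK hJ

end Vale.Agent.P181.H867
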