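import Vale.Agent.P181.H280.Form

set_option autoImplicit false

open scoped TensorProduct

namespace Vale.Agent.P181.H867

open Vale.Agent.P181 Vale.Agent.P181.H280

/-! ### An abstract positivity argument -/

/-- Let `u` be invariant under the permutations `φ g`; if the average over the `φ g` of the sum of
`u` over the `ψ h` vanishes, so does the sum over the `ψ h`. -/
lemma pos_abs {K G H : Type*} [Fintype K] [Fintype G] [Fintype H] (φ : G → Equiv.Perm K)
    (ψ : H → Equiv.Perm K) (u : K → ℂ) (hu : ∀ g k, u (φ g k) = u k)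
    (hw : ∀ h k, ∑ h', u (ψ h' (ψ h k)) = ∑ h', u (ψ h' k)) [Nonempty G]
    (h0 : ∀ k, ∑ g, ∑ h, u (ψ h (φ g k)) = 0) (k : K) : ∑ h, u (ψ h k) = 0 := by
  set w : K → ℂ := fun k => ∑ h, u (ψ h k) with hwdef
  have hw' : ∀ h k, w (ψ h k) = w k := hw
  -- the pairing of `u` and `w`
  have h1 : ∑ k, (starRingEnd ℂ) (u k) * w k = 0 := by
    have h2 : ∑ k, (starRingEnd ℂ) (u k) * ∑ g, w (φ g k) = 0 := by
      apply Finset.sum_eq_zero
      intro k _
      have h3 : ∑ g, w (φ g k) = 0 := h0 k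
      rw [h3, mul_zero]
    have h4 : ∀ g : G, ∑ k, (starRingEnd ℂ) (u k) * w (φ g k) =
        ∑ k, (starRingEnd ℂ) (u k) * w k := by
      intro g
      rw [← Equiv.sum_comp (φ g) (fun k => (starRingEnd ℂ) (u k) * w k)]
      apply Finset.sum_congr rfl
      intro k _
      rw [hu]
    simp only [Finset.mul_sum] at h2
    rw [Finset.sum_comm, Finset.sum_congr rfl (fun g _ => h4 g), Finset.sum_const,
      Finset.card_univ, nsmul_eq_mul] at h2
    refine (mul_eq_zero.1 h2).resolve_left ?_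
    exact_mod_cast Fintype.card_ne_zero
  have h5 : ∑ k, (starRingEnd ℂ) (w k) * w k = 0 := by
    have h6 : ∀ h : H, ∑ k, (starRingEnd ℂ) (u (ψ h k)) * w k = 0 := by
      intro h
      rw [← h1, ← Equiv.sum_comp (ψ h) (fun k => (starRingEnd ℂ) (u k) * w k)]
      apply Finset.sum_congr rfl
      intro k _
      rw [hw']
    have h7 : ∀ k, (starRingEnd ℂ) (w k) * w k = ∑ h, (starRingEnd ℂ) (u (ψ h k)) * w k := by
      intro k
      rw [← Finset.sum_mul, ← map_sum]
    rw [Finset.sum_congr rfl (fun k _ => h7 k), Finset.sum_comm]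
    exact Finset.sum_eq_zero (fun h _ => h6 h)
  have h8 : ∑ k, Complex.normSq (w k) = 0 := by
    have h9 : ((∑ k, Complex.normSq (w k) : ℝ) : ℂ) = 0 := by
      rw [Complex.ofReal_sum, ← h5]
      apply Finset.sum_congr rfl
      intro k _
      rw [Complex.normSq_eq_conj_mul_self]
    exact_mod_cast h9
  have h10 := (Finset.sum_eq_zero_iff_of_nonneg (fun k _ => Complex.normSq_nonneg (w k))).1 h8 k
    (Finset.mem_univ k)
  exact Complex.normSq_eq_zero.1 h10

/-! ### The two canonical maps in coordinates -/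

section

variable {n : ℕ}

/-- Evaluation of an element of `Sym^a(Sym^b V)` at a table of functionals. -/
noncomputable def ev2 {a b : ℕ} (η : Fin a → Fin b → Module.Dual ℂ (Fin n → ℂ)) :
    Sym[ℂ]^a (Sym[ℂ]^b (Fin n → ℂ)) →ₗ[ℂ] ℂ := symEval (fun i => symEval (η i))

lemma ev2_tprod {a b : ℕ} (η : Fin a → Fin b → Module.Dual ℂ (Fin n → ℂ))
    (v : Fin a → Fin b → (Fin n → ℂ)) :
    ev2 η (SymmetricPower.tprod ℂ (fun i => SymmetricPower.tprod ℂ (v i))) =
      ∑ e : Equiv.Perm (Fin a), ∏ i, ∑ τ : Equiv.Perm (Fin b), ∏ j, η i j (v (e i) (τ j)) := by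
  rw [ev2, symEval_tprod]
  apply Finset.sum_congr rfl
  intro e _
  apply Finset.prod_congr rfl
  intro i _
  rw [symEval_tprod]

/-- Invariance under permutations in the rows. -/
lemma ev2_row {a b : ℕ} (η : Fin a → Fin b → Module.Dual ℂ (Fin n → ℂ))
    (σ : Fin a → Equiv.Perm (Fin b)) : ev2 (fun i j => η i (σ i j)) = ev2 η := by
  apply pure_hom_ext
  intro v
  rw [ev2_tprod, ev2_tprod]
  apply Finset.sum_congr rfl
  intro e _
  apply Finset.prod_congr rfl
  intro i _
  rw [← Equiv.sum_comp (Equiv.mulRight (σ i))]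
  apply Finset.sum_congr rfl
  intro τ _
  rw [← Equiv.prod_comp (σ i) (fun j => η i j (v (e i) (τ j)))]
  rfl

/-- The canonical map in coordinates: averaging over the permutations of the columns. -/
lemma ev2_foulkesHowe {a b : ℕ} (η : Fin b → Fin a → Module.Dual ℂ (Fin n → ℂ))
    (x : Sym[ℂ]^a (Sym[ℂ]^b (Fin n → ℂ))) :
    (Fintype.card (Equiv.Perm (Fin a)) : ℂ) * ev2 η (foulkesHowe a b (Fin n → ℂ) x) =
      (Fintype.card (Equiv.Perm (Fin b)) : ℂ) *
        ∑ ρ : Fin b → Equiv.Perm (Fin a), ev2 (fun i j => η j (ρ j i)) x := by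
  have h : (Fintype.card (Equiv.Perm (Fin a)) : ℂ) • (ev2 η ∘ₗ foulkesHowe a b (Fin n → ℂ)) =
      (Fintype.card (Equiv.Perm (Fin b)) : ℂ) •
        ∑ ρ : Fin b → Equiv.Perm (Fin a), ev2 (fun i j => η j (ρ j i)) := by
    apply pure_hom_ext
    intro v
    rw [LinearMap.smul_apply, LinearMap.smul_apply, LinearMap.comp_apply, LinearMap.sum_apply,
      foulkesHowe_tprod, map_sum, smul_eq_mul, smul_eq_mul]
    simp only [ev2_tprod]
    -- the common value
    set S : ℂ := ∑ ρ : Fin b → Equiv.Perm (Fin a), ∏ i, ∑ τ : Equiv.Perm (Fin b),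
      ∏ j, η j (ρ j i) (v i (τ j)) with hS
    have hL : ∑ σ : Fin a → Equiv.Perm (Fin b), ∑ e : Equiv.Perm (Fin b),
        ∏ j, ∑ τ : Equiv.Perm (Fin a), ∏ i, η j i (v (τ i) (σ (τ i) (e j))) =
        (Fintype.card (Equiv.Perm (Fin b)) : ℂ) * S := by
      rw [Finset.sum_comm]
      have h1 : ∀ e : Equiv.Perm (Fin b), ∑ σ : Fin a → Equiv.Perm (Fin b),
          ∏ j, ∑ τ : Equiv.Perm (Fin a), ∏ i, η j i (v (τ i) (σ (τ i) (e j))) = S := by
        intro e
        have h2 : ∀ σ : Fin a → Equiv.Perm (Fin b),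
            ∏ j, ∑ τ : Equiv.Perm (Fin a), ∏ i, η j i (v (τ i) (σ (τ i) (e j))) =
            ∑ ρ : Fin b → Equiv.Perm (Fin a), ∏ i, ∏ j, η j (ρ j i) (v i (σ i (e j))) := by
          intro σ
          rw [Finset.prod_univ_sum, Fintype.piFinset_univ]
          rw [← (Equiv.piCongrRight (fun _ : Fin b => Equiv.inv (Equiv.Perm (Fin a)))).sum_comp
            (fun ρ => ∏ i, ∏ j, η j (ρ j i) (v i (σ i (e j))))]
          apply Finset.sum_congr rfl
          intro ρ _
          conv_rhs => rw [Finset.prod_comm]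
          apply Finset.prod_congr rfl
          intro j _
          rw [← Equiv.prod_comp (ρ j) (fun i => η j (((Equiv.piCongrRight
            (fun _ : Fin b => Equiv.inv (Equiv.Perm (Fin a)))) ρ) j i) (v i (σ i (e j))))]
          apply Finset.prod_congr rfl
          intro i _
          have h3 : (ρ j)⁻¹ (ρ j i) = i := (ρ j).symm_apply_apply i
          simp only [Equiv.piCongrRight_apply, Pi.map_apply, Equiv.inv_apply, h3]
        rw [Finset.sum_congr rfl (fun σ _ => h2 σ), Finset.sum_comm, hS]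
        apply Finset.sum_congr rfl
        intro ρ _
        rw [Finset.prod_univ_sum, Fintype.piFinset_univ]
        rw [← (Equiv.piCongrRight (fun _ : Fin a => Equiv.mulRight e)).sum_comp
          (fun σ => ∏ i, ∏ j, η j (ρ j i) (v i (σ i j)))]
        rfl
      rw [Finset.sum_congr rfl (fun e _ => h1 e), Finset.sum_const, nsmul_eq_mul,
        Finset.card_univ]
    have hR : ∑ ρ : Fin b → Equiv.Perm (Fin a), ∑ e : Equiv.Perm (Fin a),
        ∏ i, ∑ τ : Equiv.Perm (Fin b), ∏ j, η j (ρ j i) (v (e i) (τ j)) =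
        (Fintype.card (Equiv.Perm (Fin a)) : ℂ) * S := by
      rw [Finset.sum_comm]
      have h1 : ∀ e : Equiv.Perm (Fin a), ∑ ρ : Fin b → Equiv.Perm (Fin a),
          ∏ i, ∑ τ : Equiv.Perm (Fin b), ∏ j, η j (ρ j i) (v (e i) (τ j)) = S := by
        intro e
        rw [hS, ← (Equiv.piCongrRight (fun _ : Fin b => Equiv.mulRight e)).sum_comp
          (fun ρ => ∏ i, ∑ τ : Equiv.Perm (Fin b), ∏ j, η j (ρ j i) (v (e i) (τ j)))]
        apply Finset.sum_congr rfl
        intro ρ _
        rw [← Equiv.prod_comp e (fun i => ∑ τ : Equiv.Perm (Fin b), ∏ j, η j (ρ j i) (v i (τ j)))]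
        rfl
      rw [Finset.sum_congr rfl (fun e _ => h1 e), Finset.sum_const, nsmul_eq_mul,
        Finset.card_univ]
    rw [hL, hR]
    ring
  have h1 := LinearMap.congr_fun h x
  rw [LinearMap.smul_apply, LinearMap.smul_apply, LinearMap.comp_apply, LinearMap.sum_apply,
    smul_eq_mul, smul_eq_mul] at h1
  exact h1

/-- The basis functionals. -/
noncomputable def pr (i : Fin n) : Module.Dual ℂ (Fin n → ℂ) := LinearMap.proj i

lemma span_pr : Submodule.span ℂ (Set.range (pr : Fin n → Module.Dual ℂ (Fin n → ℂ))) = ⊤ := by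
  rw [eq_top_iff]
  intro ξ _
  have h : ξ = ∑ i, ξ (Pi.single i 1) • pr i := by
    apply LinearMap.ext
    intro v
    rw [LinearMap.sum_apply]
    simp only [LinearMap.smul_apply, pr, LinearMap.proj_apply, smul_eq_mul]
    conv_lhs => rw [← Finset.univ_sum_single v]
    rw [map_sum]
    apply Finset.sum_congr rfl
    intro j _
    have h1 : (Pi.single j (v j) : Fin n → ℂ) = v j • Pi.single j 1 := by
      rw [← Pi.single_smul, smul_eq_mul, mul_one]
    rw [h1, map_smul, smul_eq_mul, mul_comm]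
  rw [h]
  exact Submodule.sum_mem _ (fun i _ => Submodule.smul_mem _ _ (Submodule.subset_span ⟨i, rfl⟩))

/-- The coordinates determine the element. -/
lemma eq_zero_of_coord {a b : ℕ} (x : Sym[ℂ]^a (Sym[ℂ]^b (Fin n → ℂ)))
    (h : ∀ k : Fin a → Fin b → Fin n, ev2 (fun i j => pr (k i j)) x = 0) : x = 0 := by
  have hspan : Submodule.span ℂ (Set.range (fun k : Fin b → Fin n =>
      (symEval (fun j => pr (k j)) : (Sym[ℂ]^b (Fin n → ℂ)) →ₗ[ℂ] ℂ))) =
      (⊤ : Submodule ℂ (Module.Dual ℂ (Sym[ℂ]^b (Fin n → ℂ)))) := by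
    set W := Submodule.span ℂ (Set.range (fun k : Fin b → Fin n =>
      (symEval (fun j => pr (k j)) : (Sym[ℂ]^b (Fin n → ℂ)) →ₗ[ℂ] ℂ))) with hW
    have h1 : W.dualCoannihilator = ⊥ := by
      rw [eq_bot_iff]
      intro y hy
      rw [Submodule.mem_dualCoannihilator] at hy
      rw [Submodule.mem_bot]
      apply symEval_separates _ span_pr
      intro lam hlam
      choose k hk using hlam
      have hk' : lam = fun j => pr (k j) := by
        funext j; exact (hk j).symm
      rw [hk']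
      exact hy _ (Submodule.subset_span ⟨k, rfl⟩)
    have h2 := Subspace.dualCoannihilator_dualAnnihilator_eq (W := W)
    rw [h1] at h2
    rw [← h2]
    exact Submodule.dualAnnihilator_bot
  apply symEval_separates _ hspan
  intro lam hlam
  choose k hk using hlam
  have hk' : lam = fun i => symEval (fun j => pr (k i j)) := by
    funext i; exact (hk i).symm
  rw [hk']
  exact h k

/-- Row permutations of tables. -/
def rowP {a b : ℕ} (σ : Fin a → Equiv.Perm (Fin b)) : Equiv.Perm (Fin a → Fin b → Fin n) where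
  toFun k := fun i j => k i (σ i j)
  invFun k := fun i j => k i ((σ i).symm j)
  left_inv k := by
    funext i j
    simp
  right_inv k := by
    funext i j
    simp

/-- Column permutations of tables. -/
def colP {a b : ℕ} (ρ : Fin b → Equiv.Perm (Fin a)) : Equiv.Perm (Fin a → Fin b → Fin n) where
  toFun k := fun i j => k (ρ j i) j
  invFun k := fun i j => k ((ρ j).symm i) j
  left_inv k := by
    funext i j
    simp
  right_inv k := by
    funext i j
    simp

/-- **The composition of the two canonical maps has the kernel of the first one.** -/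
theorem fh_fh {a b : ℕ} (x : Sym[ℂ]^a (Sym[ℂ]^b (Fin n → ℂ)))
    (h : foulkesHowe b a (Fin n → ℂ) (foulkesHowe a b (Fin n → ℂ) x) = 0) :
    foulkesHowe a b (Fin n → ℂ) x = 0 := by
  have ca : (Fintype.card (Equiv.Perm (Fin a)) : ℂ) ≠ 0 := by exact_mod_cast Fintype.card_ne_zero
  have cb : (Fintype.card (Equiv.Perm (Fin b)) : ℂ) ≠ 0 := by exact_mod_cast Fintype.card_ne_zero
  set u : (Fin a → Fin b → Fin n) → ℂ := fun k => ev2 (fun i j => pr (k i j)) x with hu
  have key : ∀ k : Fin a → Fin b → Fin n,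
      ∑ ρ : Fin b → Equiv.Perm (Fin a), u (colP ρ k) = 0 := by
    apply pos_abs (fun σ : Fin a → Equiv.Perm (Fin b) => rowP σ)
      (fun ρ : Fin b → Equiv.Perm (Fin a) => colP ρ) u
    · intro σ k
      exact LinearMap.congr_fun (ev2_row (fun i j => pr (k i j)) σ) x
    · intro ρ k
      rw [← (Equiv.piCongrRight (fun j : Fin b => Equiv.mulLeft (ρ j))).sum_comp
        (fun ρ' => u (colP ρ' k))]
      rfl
    · intro k
      have h1 := ev2_foulkesHowe (a := b) (b := a) (fun i j => pr (k i j))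
        (foulkesHowe a b (Fin n → ℂ) x)
      rw [h, map_zero, mul_zero] at h1
      have h2 := (mul_eq_zero.1 h1.symm).resolve_left ca
      have h3 : ∀ σ : Fin a → Equiv.Perm (Fin b),
          (Fintype.card (Equiv.Perm (Fin a)) : ℂ) *
            ev2 (fun (i : Fin b) (j : Fin a) => pr (k j (σ j i))) (foulkesHowe a b (Fin n → ℂ) x) =
          (Fintype.card (Equiv.Perm (Fin b)) : ℂ) *
            ∑ ρ : Fin b → Equiv.Perm (Fin a), u (colP ρ (rowP σ k)) := fun σ =>
        ev2_foulkesHowe (fun (i : Fin b) (j : Fin a) => pr (k j (σ j i))) x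
      have h4 : (Fintype.card (Equiv.Perm (Fin b)) : ℂ) * ∑ σ : Fin a → Equiv.Perm (Fin b),
          ∑ ρ : Fin b → Equiv.Perm (Fin a), u (colP ρ (rowP σ k)) = 0 := by
        rw [Finset.mul_sum, ← Finset.sum_congr rfl (fun σ _ => h3 σ), ← Finset.mul_sum, h2,
          mul_zero]
      exact (mul_eq_zero.1 h4).resolve_left cb
  apply eq_zero_of_coord
  intro k
  have h1 := ev2_foulkesHowe (fun (j : Fin b) (i : Fin a) => pr (k j i)) x
  have h2 := key (fun i j => k j i)
  have h3 : ∑ ρ : Fin b → Equiv.Perm (Fin a), ev2 (fun i j => pr (k j (ρ j i))) x = 0 := h2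
  rw [h3, mul_zero] at h1
  exact (mul_eq_zero.1 h1).resolve_left ca

end

end Vale.Agent.P181.H867
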