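import Vale.Agent.P181.H280.Final
import Vale.Agent.P181.H54.Propagate

set_option autoImplicit false

open scoped TensorProduct

namespace Vale.Agent.P181.H867

open Vale.Agent.P181 Vale.Agent.P181.H280 MvPolynomial

variable {n : ℕ}

/-- The first two variables (zero if there is no such variable). -/
noncomputable def hd0 (n : ℕ) : MvPolynomial (Fin n) ℂ := if h : 0 < n then X ⟨0, h⟩ else 0

/-- The first two variables (zero if there is no such variable). -/
noncomputable def hd1 (n : ℕ) : MvPolynomial (Fin n) ℂ := if h : 1 < n then X ⟨1, h⟩ else 0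

/-- The span of the variables of index at least two. -/
noncomputable def tailS (n : ℕ) : Submodule ℂ (MvPolynomial (Fin n) ℂ) :=
  Submodule.span ℂ ((X : Fin n → MvPolynomial (Fin n) ℂ) '' {j | 2 ≤ (j : ℕ)})

lemma X_mem_tailS {j : Fin n} (h : 2 ≤ (j : ℕ)) :
    (X j : MvPolynomial (Fin n) ℂ) ∈ tailS n :=
  Submodule.subset_span ⟨j, h, rfl⟩

lemma tailS_le : tailS n ≤ linS n := by
  apply Submodule.span_mono
  rintro _ ⟨j, _, rfl⟩
  exact ⟨j, rfl⟩

lemma hd0_mem : hd0 n ∈ linS n := by
  unfold hd0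
  split_ifs with h
  · exact X_mem_linS _
  · exact Submodule.zero_mem _

lemma hd1_mem : hd1 n ∈ linS n := by
  unfold hd1
  split_ifs with h
  · exact X_mem_linS _
  · exact Submodule.zero_mem _

/-- The linear forms are the sum of the span of the first two variables and of the tail. -/
lemma head_sup_tail (n : ℕ) : Submodule.span ℂ {hd0 n, hd1 n} ⊔ tailS n = linS n := by
  apply le_antisymm
  · apply sup_le
    · rw [Submodule.span_le]
      intro y hy
      rcases hy with rfl | hy
      · exact hd0_mem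
      · rw [Set.mem_singleton_iff] at hy
        subst hy
        exact hd1_mem
    · exact tailS_le
  · unfold linS
    rw [Submodule.span_le]
    rintro _ ⟨j, rfl⟩
    by_cases h : 2 ≤ (j : ℕ)
    · exact Submodule.mem_sup_right (X_mem_tailS h)
    · apply Submodule.mem_sup_left
      have hn : 0 < n := lt_of_le_of_lt (Nat.zero_le _) j.2
      have h3 : (j : ℕ) = 0 ∨ (j : ℕ) = 1 := by omega
      rcases h3 with h0 | h0
      · apply Submodule.subset_span
        left
        unfold hd0
        rw [dif_pos hn]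
        congr 1
        exact Fin.ext h0
      · apply Submodule.subset_span
        right
        rw [Set.mem_singleton_iff]
        unfold hd1
        have hn1 : 1 < n := h0 ▸ j.2
        rw [dif_pos hn1]
        congr 1
        exact Fin.ext h0

/-- The forms of highest weight vectors of weight `lam` in `Sym^a(Sym^{qa} ℂ^n)` which vanish on
all `q`-th powers of forms of degree `a` vanish. -/
def FormsVanish (a q n : ℕ) (lam : Fin n → ℕ) : Prop :=
  ∀ l : (Fin a → Fin (q * a) → (Fin n → ℂ)) →₀ ℂ,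
    elOf l ∈ hwSpace lam (plethAct a (q * a) n) →
    (∀ G ∈ linS n ^ a, formOf l (fun _ => G ^ q) = 0) →
    ∀ P : Fin a → MvPolynomial (Fin n) ℂ, (∀ i, P i ∈ linS n ^ (q * a)) → formOf l P = 0

/-- Then the power map is injective on the highest weight vectors of weight `lam`. -/
theorem powMap_injOn_of (a q n : ℕ) (lam : Fin n → ℕ) (h : FormsVanish a q n lam)
    (x : Sym[ℂ]^a (Sym[ℂ]^(q * a) (Fin n → ℂ))) (hx : x ∈ hwSpace lam (plethAct a (q * a) n))
    (h0 : powMap a q (Fin n → ℂ) x = 0) : x = 0 := by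
  obtain ⟨l, rfl⟩ := exists_elOf x
  exact elOf_eq_zero l (h l hx (fun G hG => formOf_pow l h0 G hG))

theorem plethMult_le_of (a q n : ℕ) (lam : Fin n → ℕ) (h : FormsVanish a q n lam) :
    plethMult a (q * a) n lam ≤ plethMult (q * a) a n lam :=
  finrank_le_of_inj (powMap a q (Fin n → ℂ)) _ _ (fun x hx => powMap_hwSpace lam x hx)
    (fun x hx h0 => powMap_injOn_of a q n lam h x hx h0)

/-- One equivariant map for all the weights with `FormsVanish`. -/
theorem top_of (a q n : ℕ) :
    ∃ Ψ : Pleth a (q * a) n →ₗ[ℂ] Pleth (q * a) a n, IsEquivariant Ψ ∧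
      ∀ lam : Fin n → ℕ, FormsVanish a q n lam →
        InjOnHW Ψ lam ∧ plethMult a (q * a) n lam ≤ plethMult (q * a) a n lam :=
  ⟨powMap a q (Fin n → ℂ),
    fun g x => LinearMap.congr_fun (powMap_equivariant a q (Matrix.toLin' g)) x,
    fun lam hlam => ⟨fun x hx h0 => powMap_injOn_of a q n lam hlam x hx h0,
      plethMult_le_of a q n lam hlam⟩⟩

/-- Propagation to all `b = q a + k`. -/
theorem propagate_of (a q k m : ℕ) (lam : Fin (m + 1) → ℕ)
    (hlam : ∀ i, i ≠ 0 → lam i ≤ q * a) (h : FormsVanish a q (m + 1) lam) :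
    plethMult a (q * a + k) (m + 1) (H54.addFirst lam (a * k)) ≤
      plethMult (q * a + k) a (m + 1) (H54.addFirst lam (a * k)) :=
  (H54.plethMult_stab_iter a (q * a) lam hlam k).trans
    ((plethMult_le_of a q (m + 1) lam h).trans (H54.plethMult_mono_iter a (q * a) lam k))

/-- The abstract vanishing statement (`s = q - 2`): a symmetric form on a commutative algebra
which kills all `q`-th powers of elements of `(B ⊔ Z)^a` and all arguments one of which is in
`Z^3 (B ⊔ Z)^(qa-3)` vanishes. -/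
def Kernel (a q : ℕ) : Prop :=
  ∀ (A : Type) [CommRing A] [Algebra ℂ A] (x0 x1 : A) (Z : Submodule ℂ A)
    (F : MultilinearMap ℂ (fun _ : Fin a => A) ℂ), IsSymm F →
    (∀ G ∈ (Submodule.span ℂ {x0, x1} ⊔ Z) ^ a, F (fun _ => G ^ q) = 0) →
    (∀ P : Fin a → A, (∀ i, P i ∈ (Submodule.span ℂ {x0, x1} ⊔ Z) ^ (q * a)) →
      (∃ i, P i ∈ Z ^ 3 * (Submodule.span ℂ {x0, x1} ⊔ Z) ^ (q * a - 3)) → F P = 0) →
    ∀ P : Fin a → A, (∀ i, P i ∈ (Submodule.span ℂ {x0, x1} ⊔ Z) ^ (q * a)) → F P = 0

/-- Third tail letters are killed. -/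
def TailThree (a b n : ℕ) (lam : Fin n → ℕ) : Prop :=
  ∀ l : (Fin a → Fin b → (Fin n → ℂ)) →₀ ℂ, elOf l ∈ hwSpace lam (plethAct a b n) →
    ∀ P : Fin a → MvPolynomial (Fin n) ℂ, (∀ i, P i ∈ linS n ^ b) →
      (∃ i, P i ∈ tailS n ^ 3 * linS n ^ (b - 3)) → formOf l P = 0

theorem formsVanish_of (a q n : ℕ) (lam : Fin n → ℕ) (hK : Kernel a q)
    (hV : TailThree a (q * a) n lam) : FormsVanish a q n lam := by
  intro l hx hG P hP
  have h1 := hK (MvPolynomial (Fin n) ℂ) (hd0 n) (hd1 n) (tailS n) (formOf l) (formOf_symm l)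
  rw [head_sup_tail] at h1
  exact h1 hG (fun P hP hi => hV l hx P hP hi) P hP

end Vale.Agent.P181.H867
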