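import Vale.Agent.P181.H867.PowG
import Vale.Agent.P181.H867.Top
import Vale.Agent.P181.H810.V3
import Vale.Agent.P181.H777.Tails

set_option autoImplicit false

open scoped TensorProduct

namespace Vale.Agent.P181.H867

open Vale.Agent.P181 Vale.Agent.P181.H280 MvPolynomial

variable {n : ℕ}

/-- The abstract vanishing statement: a symmetric form in `d` slots on a commutative algebra
which kills all `q`-th powers of elements of `(B ⊔ Z)^c` and all arguments one of which is in
`Z^3 (B ⊔ Z)^(qc-3)` vanishes. -/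
def KernelG (d c q : ℕ) : Prop :=
  ∀ (A : Type) [CommRing A] [Algebra ℂ A] (x0 x1 : A) (Z : Submodule ℂ A)
    (F : MultilinearMap ℂ (fun _ : Fin d => A) ℂ), IsSymm F →
    (∀ G ∈ (Submodule.span ℂ {x0, x1} ⊔ Z) ^ c, F (fun _ => G ^ q) = 0) →
    (∀ P : Fin d → A, (∀ i, P i ∈ (Submodule.span ℂ {x0, x1} ⊔ Z) ^ (q * c)) →
      (∃ i, P i ∈ Z ^ 3 * (Submodule.span ℂ {x0, x1} ⊔ Z) ^ (q * c - 3)) → F P = 0) →
    ∀ P : Fin d → A, (∀ i, P i ∈ (Submodule.span ℂ {x0, x1} ⊔ Z) ^ (q * c)) → F P = 0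

lemma tailThree {a b n : ℕ} (hb : 3 ≤ b) (lam : Fin n → ℕ)
    (hlam : ∀ i : Fin n, (i : ℕ) = 2 → lam i ≤ 2) : TailThree a b n lam :=
  fun l hx P hP hi => H810.v3 lam hlam l hx hb P hP hi

theorem formsVanishG_of (d q c n : ℕ) (lam : Fin n → ℕ) (hK : KernelG d c q)
    (hV : TailThree d (q * c) n lam) : FormsVanishG d q c n lam := by
  intro l hx hG P hP
  have h1 := hK (MvPolynomial (Fin n) ℂ) (hd0 n) (hd1 n) (tailS n) (formOf l) (formOf_symm l)
  rw [head_sup_tail] at h1
  exact h1 hG (fun P hP hi => hV l hx P hP hi) P hP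

/-- One equivariant map, injective on all highest weight vectors with third row at most `2`. -/
theorem topG_of (d q c n : ℕ) (hK : KernelG d c q) (hb : 3 ≤ q * c) :
    ∃ Ψ : Pleth d (q * c) n →ₗ[ℂ] Pleth (q * d) c n,
      (∀ g x, Ψ (plethAct d (q * c) n g x) = plethAct (q * d) c n g (Ψ x)) ∧
      ∀ lam : Fin n → ℕ, (∀ i : Fin n, (i : ℕ) = 2 → lam i ≤ 2) →
        (∀ x ∈ hwSpace lam (plethAct d (q * c) n), Ψ x = 0 → x = 0) ∧
        plethMult d (q * c) n lam ≤ plethMult (q * d) c n lam :=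
  ⟨powMapG d q c (Fin n → ℂ),
    fun g x => LinearMap.congr_fun (powMapG_equivariant d q c (Matrix.toLin' g)) x,
    fun lam hlam => ⟨fun x hx h0 => powMapG_injOn_of d q c n lam
      (formsVanishG_of d q c n lam hK (tailThree hb lam hlam)) x hx h0,
      plethMultG_le_of d q c n lam (formsVanishG_of d q c n lam hK (tailThree hb lam hlam))⟩⟩

/-- The strengthened Foulkes inequality for weights with the same rows below the first one. -/
theorem F_le_of_kernel {a b c d q : ℕ} (hK : KernelG a d q) (hd : 2 ≤ d) (hq : 2 ≤ q)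
    (hc : q * a ≤ c) {m : ℕ} (α : Fin m → ℕ) (h1 : ∀ i, α i ≤ q * d)
    (h2 : ∀ i : Fin m, (i : ℕ) = 1 → α i ≤ 2) : H777.F a b α ≤ H777.F c d α := by
  have hb : 3 ≤ q * d := by nlinarith
  have h3 : H777.F a (q * d) α ≤ H777.F (q * a) d α := by
    rw [H777.F, H777.F]
    have h4 : q * a * d = a * (q * d) := by ring
    rw [h4]
    apply plethMultG_le_of
    apply formsVanishG_of _ _ _ _ _ hK
    apply tailThree hb
    intro i
    refine Fin.cases ?_ (fun i => ?_) i
    · intro h
      simp at h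
    · intro h
      rw [H777.pad_succ]
      apply h2
      rw [Fin.val_succ] at h
      omega
  exact (H777.F_inner_le a b (q * d) α h1).trans (h3.trans (H777.F_outer_mono hc d α))

end Vale.Agent.P181.H867
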