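import Vale.Agent.P181.H867.FoulkesInter
import Vale.Agent.P181.H867.PowG
import Vale.Agent.P181.H530.Inj4

set_option autoImplicit false

/-!
# Reduction to highest weight vectors and to symmetric forms

* `exists_hw_pleth`: a nonzero invariant subspace of `Sym^a(Sym^b ℂ^n)` contains a nonzero
  highest weight vector;
* `exists_form`: every symmetric form is the form of an element;
* `fh_eq_zero_of_isK`, `powMapG_eq_zero`: the converses of `isK_formOf` and `formOf_powG`;
* `inter_of_types`: `Inter` follows from its version for highest weight vectors.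
-/

open scoped TensorProduct

namespace Vale.Agent.P181.H867

open Vale.Agent.P181 Vale.Agent.P181.H280 MvPolynomial

variable {n : ℕ}

/-- A nonzero invariant subspace of `Sym^a(Sym^b ℂ^n)` contains a nonzero highest weight
vector. -/
theorem exists_hw_pleth (a b n : ℕ) (W : Submodule ℂ (Pleth a b n))
    (hW : ∀ g, ∀ w ∈ W, plethAct a b n g w ∈ W) (hne : W ≠ ⊥) :
    ∃ lam : Fin n → ℕ, ∃ w ∈ W, w ≠ 0 ∧ w ∈ hwSpace lam (plethAct a b n) := by
  have h1 : ∀ g, ∀ w ∈ W.map (H530.pmEquiv a b n).toLinearMap,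
      H530.pmAct a b n g w ∈ W.map (H530.pmEquiv a b n).toLinearMap := by
    rintro g w ⟨x, hx, rfl⟩
    refine ⟨plethAct a b n g x, hW g x hx, ?_⟩
    rw [LinearEquiv.coe_coe, H530.pmEquiv_act]
  have h2 : W.map (H530.pmEquiv a b n).toLinearMap ≠ ⊥ := by
    obtain ⟨x, hx, hx0⟩ := (Submodule.ne_bot_iff W).1 hne
    rw [Submodule.ne_bot_iff]
    exact ⟨_, ⟨x, hx, rfl⟩, fun h => hx0 ((H530.pmEquiv a b n).map_eq_zero_iff.1 h)⟩
  obtain ⟨lam, w, ⟨x, hx, rfl⟩, hw0, hwh⟩ := (H530.pm_crep a b n).hw _ h1 h2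
  refine ⟨lam, x, hx, fun h => hw0 (by rw [h, map_zero]), fun g hg => ?_⟩
  apply (H530.pmEquiv a b n).injective
  have h3 := hwh g hg
  rw [LinearEquiv.coe_coe] at h3
  rw [H530.pmEquiv_act, h3, map_smul]

lemma formOf_eq_lc {a b : ℕ} (l : (Fin a → Fin b → (Fin n → ℂ)) →₀ ℂ) :
    formOf l = Finsupp.linearCombination ℂ
      (fun v : Fin a → Fin b → (Fin n → ℂ) => (rowForm v).compLinearMap (fun _ => evL n)) l := by
  rw [Finsupp.linearCombination_apply, Finsupp.sum]
  rfl

/-- The coordinate arrays. -/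
def cArr {a b n : ℕ} (c : Fin a → Fin b → Fin n) : Fin a → Fin b → (Fin n → ℂ) :=
  fun i j => Pi.single (c i j) 1

/-- Every symmetric form is the form of an element. -/
theorem exists_form {a b : ℕ} (F : MultilinearMap ℂ (fun _ : Fin a => MvPolynomial (Fin n) ℂ) ℂ)
    (hs : IsSymm F) : ∃ l : (Fin a → Fin b → (Fin n → ℂ)) →₀ ℂ,
      ∀ P : Fin a → MvPolynomial (Fin n) ℂ, (∀ i, P i ∈ linS n ^ b) → formOf l P = F P := by
  classical
  let N : ℂ := (Fintype.card (Equiv.Perm (Fin a)) : ℂ) *
    (Fintype.card (Fin a → Equiv.Perm (Fin b)) : ℂ)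
  have hN : N ≠ 0 := by
    refine mul_ne_zero ?_ ?_
    · exact_mod_cast Fintype.card_ne_zero
    · exact_mod_cast Fintype.card_ne_zero
  let l : (Fin a → Fin b → (Fin n → ℂ)) →₀ ℂ :=
    ∑ c : Fin a → Fin b → Fin n, Finsupp.single (cArr c) (N⁻¹ * F (fun i => ∏ j, X (c i j)))
  refine ⟨l, ?_⟩
  have key : ∀ d : Fin a → Fin b → Fin n, formOf l (fun i => ∏ j, X (d i j)) =
      F (fun i => ∏ j, X (d i j)) := by
    intro d
    have h1 : formOf l (fun i => ∏ j, X (d i j)) = ∑ c : Fin a → Fin b → Fin n,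
        (N⁻¹ * F (fun i => ∏ j, X (c i j))) * ∑ σ : Equiv.Perm (Fin a),
          ∑ τ : Fin a → Equiv.Perm (Fin b), if (∀ i j, c (σ i) (τ i j) = d i j) then 1 else 0 := by
      rw [formOf_eq_lc]
      simp only [l]
      rw [map_sum, _root_.sum_apply]
      refine Finset.sum_congr rfl fun c _ => ?_
      rw [Finsupp.linearCombination_single, smul_apply, smul_eq_mul,
        MultilinearMap.compLinearMap_apply, rowForm_apply]
      congr 1
      refine Finset.sum_congr rfl fun σ _ => ?_
      have h2 : ∀ i, ryser (cArr c (σ i)) (evL n (∏ j, X (d i j))) =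
          ∑ e : Equiv.Perm (Fin b), ∏ j, if c (σ i) (e j) = d i j then (1 : ℂ) else 0 := by
        intro i
        have h3 : evL n (∏ j, X (d i j)) =
            ∏ j, (fun v => (LinearMap.proj (R := ℂ) (φ := fun _ : Fin n => ℂ) (d i j)) v) := by
          rw [evL_prod]
          refine Finset.prod_congr rfl fun j _ => ?_
          exact evL_X _
        rw [h3, ryser_prod]
        refine Finset.sum_congr rfl fun e _ => Finset.prod_congr rfl fun j _ => ?_
        rw [LinearMap.proj_apply, cArr, Pi.single_apply]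
        simp only [eq_comm]
      rw [Finset.prod_congr rfl (fun i _ => h2 i), Finset.prod_univ_sum, Fintype.piFinset_univ]
      refine Finset.sum_congr rfl fun τ _ => ?_
      simp only [Finset.prod_ite_zero, Finset.prod_const_one, Finset.mem_univ, forall_true_left]
    rw [h1]
    simp only [Finset.mul_sum]
    rw [Finset.sum_comm]
    have h4 : ∀ σ : Equiv.Perm (Fin a), ∑ c : Fin a → Fin b → Fin n,
        ∑ τ : Fin a → Equiv.Perm (Fin b), (N⁻¹ * F (fun i => ∏ j, X (c i j))) *
          (if (∀ i j, c (σ i) (τ i j) = d i j) then 1 else 0) =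
        (Fintype.card (Fin a → Equiv.Perm (Fin b)) : ℂ) *
          (N⁻¹ * F (fun i => ∏ j, X (d i j))) := by
      intro σ
      rw [Finset.sum_comm]
      have h5 : ∀ τ : Fin a → Equiv.Perm (Fin b), ∑ c : Fin a → Fin b → Fin n,
          (N⁻¹ * F (fun i => ∏ j, X (c i j))) *
            (if (∀ i j, c (σ i) (τ i j) = d i j) then (1 : ℂ) else 0) =
          N⁻¹ * F (fun i => ∏ j, X (d i j)) := by
        intro τ
        rw [Finset.sum_eq_single (fun i' j' => d (σ.symm i') ((τ (σ.symm i')).symm j'))]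
        · rw [if_pos (by
            intro i j
            simp only [Equiv.symm_apply_apply]), mul_one]
          congr 1
          have h6 : (fun i' => ∏ j', X (d (σ.symm i') ((τ (σ.symm i')).symm j')) :
              Fin a → MvPolynomial (Fin n) ℂ) = fun i' => ∏ j, X (d (σ.symm i') j) := by
            funext i'
            exact Equiv.prod_comp (τ (σ.symm i')).symm (fun j => X (d (σ.symm i') j))
          rw [h6]
          exact hs σ.symm (fun i => ∏ j, X (d i j))
        · intro c _ hc
          rw [if_neg, mul_zero]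
          intro h
          apply hc
          funext i' j'
          have := h (σ.symm i') ((τ (σ.symm i')).symm j')
          simp only [Equiv.apply_symm_apply] at this
          exact this
        · intro h; exact absurd (Finset.mem_univ _) h
      rw [Finset.sum_congr rfl (fun τ _ => h5 τ), Finset.sum_const, nsmul_eq_mul,
        Finset.card_univ]
    rw [Finset.sum_congr rfl (fun σ _ => h4 σ), Finset.sum_const, nsmul_eq_mul, Finset.card_univ]
    rw [← mul_assoc, ← mul_assoc, mul_inv_cancel₀ hN, one_mul]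
  intro P hP
  have h1 := multilinear_zero_of_span (formOf l - F)
    (Set.range (fun c : Fin b → Fin n => ∏ j, (X (c j) : MvPolynomial (Fin n) ℂ))) (by
      intro w hw
      choose d hd using hw
      have h2 : w = fun i => ∏ j, X (d i j) := by
        funext i; exact (hd i).symm
      rw [h2, sub_apply, key, sub_self]) P (fun i => span_pow_eq _ _ (hP i))
  rw [sub_apply, sub_eq_zero] at h1
  exact h1

lemma symEval_const {M : Type*} [AddCommGroup M] [Module ℂ M] (a : ℕ) (ψ : Module.Dual ℂ M) :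
    (symEval (fun _ : Fin a => ψ) : (Sym[ℂ]^a M) →ₗ[ℂ] ℂ) =
      (Fintype.card (Equiv.Perm (Fin a)) : ℂ) • evalPow a ψ := by
  apply sym_hom_ext
  intro v
  rw [symEval_tprod, LinearMap.smul_apply, evalPow_tprod, smul_eq_mul,
    Finset.sum_congr rfl (fun e _ => Equiv.prod_comp e (fun i => ψ (v i))), Finset.sum_const,
    nsmul_eq_mul, Finset.card_univ]

/-- The converse of `isK_formOf`. -/
theorem fh_eq_zero_of_isK {a b : ℕ} (l : (Fin a → Fin b → (Fin n → ℂ)) →₀ ℂ)
    (h : IsK (linS n) b (formOf l)) : foulkesHowe a b (Fin n → ℂ) (elOf l) = 0 := by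
  rw [H365.fh_eq_zero_iff]
  intro ξ
  have h1 := formOf_lin l (fun _ j => linP (ξ j)) (fun _ j => ξ j) (fun _ j => evL_linP _)
  have h2 : formOf l (fun _ => ∏ j, linP (ξ j)) = 0 := by
    have h3 := h (Finset.univ.val.map (fun j => linP (ξ j))) (by simp) (by
      intro x hx
      obtain ⟨j, _, rfl⟩ := Multiset.mem_map.1 hx
      exact linP_mem _)
    exact h3
  rw [h2, symEval_const, LinearMap.smul_apply, smul_eq_mul] at h1
  refine (mul_eq_zero.1 h1.symm).resolve_left ?_
  exact_mod_cast Fintype.card_ne_zero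

/-- The converse of `formOf_powG`. -/
theorem powMapG_eq_zero {d q c : ℕ} (l : (Fin d → Fin (q * c) → (Fin n → ℂ)) →₀ ℂ)
    (h : ∀ G ∈ linS n ^ c, formOf l (fun _ => G ^ q) = 0) :
    powMapG d q c (Fin n → ℂ) (elOf l) = 0 := by
  classical
  apply H365.eq_zero_of_evalPow
  intro ξ
  let cp : Equiv.Perm (Fin (q * d)) → (Fin d × Fin q ≃ Fin (q * d)) := fun p =>
    ((Equiv.prodComm _ _).trans finProdFinEquiv).trans p
  have hcp : ∀ p i k, cp p (i, k) = p (finProdFinEquiv (k, i)) := fun p i k => rfl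
  let Φ : MultilinearMap ℂ (fun _ : Fin (q * d) => MvPolynomial (Fin n) ℂ) ℂ :=
    (rowProd q (formOf l)).domDomCongr (cp 1)
  have hΦ : ∀ y, Φ y = formOf l (fun i => ∏ k : Fin q, y (finProdFinEquiv (k, i))) := by
    intro y
    simp only [Φ, MultilinearMap.domDomCongr_apply, rowProd_apply, hcp]
    rfl
  have h0 := polar Φ (linS n ^ c) (by
    intro G hG
    rw [hΦ]
    simp only [Finset.prod_const, Finset.card_univ, Fintype.card_fin]
    exact h G hG) (fun j => linP (ξ j) ^ c) (fun j => Submodule.pow_mem_pow _ (linP_mem _) c)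
  simp only [hΦ] at h0
  have h1 : ∀ (p : Equiv.Perm (Fin (q * d))) (i : Fin d),
      evL n (∏ k : Fin q, linP (ξ (p (finProdFinEquiv (k, i)))) ^ c) =
      ∏ t : Fin (q * c),
        (fun w => ξ (p (finProdFinEquiv ((finProdFinEquiv.symm t).1, i))) w) := by
    intro p i
    rw [evL_prod, ← Equiv.prod_comp finProdFinEquiv, Fintype.prod_prod_type]
    apply Finset.prod_congr rfl
    intro k _
    simp only [Equiv.symm_apply_apply, Finset.prod_const, Finset.card_univ, Fintype.card_fin]
    funext w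
    rw [evL_apply, map_pow, Pi.pow_apply, ← evL_apply, evL_linP]
  simp only [formOf_apply, h1] at h0
  rw [elOf, map_sum, map_sum]
  simp only [map_smul, symEval_powMapG, smul_eq_mul]
  rw [Finset.sum_comm] at h0
  have h3 : ∀ v : Fin d → Fin (q * c) → (Fin n → ℂ), ∀ σ : Equiv.Perm (Fin d),
      ∑ p : Equiv.Perm (Fin (q * d)), ∏ i, ryser (v (σ i)) (∏ t : Fin (q * c),
        (fun w => ξ (p (finProdFinEquiv ((finProdFinEquiv.symm t).1, i))) w)) =
      ∑ p : Equiv.Perm (Fin (q * d)), ∏ i, ryser (v i) (∏ t : Fin (q * c),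
        (fun w => ξ (p (finProdFinEquiv ((finProdFinEquiv.symm t).1, i))) w)) := by
    intro v σ
    rw [← Equiv.sum_comp (Equiv.mulRight (blockPerm d q σ))]
    apply Finset.sum_congr rfl
    intro p _
    rw [← Equiv.prod_comp σ (fun i => ryser (v i) (∏ t : Fin (q * c),
      (fun w => ξ (p (finProdFinEquiv ((finProdFinEquiv.symm t).1, i))) w)))]
    apply Finset.prod_congr rfl
    intro i _
    congr 1
    apply Finset.prod_congr rfl
    intro t _
    simp only [Equiv.coe_mulRight, Equiv.Perm.coe_mul, Function.comp_apply]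
    have h4 : blockPerm d q σ (finProdFinEquiv ((finProdFinEquiv.symm t).1, i)) =
        finProdFinEquiv ((finProdFinEquiv.symm t).1, σ i) := by
      simp only [blockPerm, Equiv.trans_apply, Equiv.symm_apply_apply]
      rfl
    rw [h4]
  have h5 : ∀ v ∈ l.support, ∑ p : Equiv.Perm (Fin (q * d)), l v *
      ∑ σ : Equiv.Perm (Fin d), ∏ i, ryser (v (σ i)) (∏ t : Fin (q * c),
        (fun w => ξ (p (finProdFinEquiv ((finProdFinEquiv.symm t).1, i))) w)) =
      (Fintype.card (Equiv.Perm (Fin d)) : ℂ) * (l v *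
      ∑ p : Equiv.Perm (Fin (q * d)), ∏ i, ryser (v i) (∏ t : Fin (q * c),
        (fun w => ξ (p (finProdFinEquiv ((finProdFinEquiv.symm t).1, i))) w))) := by
    intro v _
    rw [← Finset.mul_sum, Finset.sum_comm, Finset.sum_congr rfl (fun σ _ => h3 v σ),
      Finset.sum_const, nsmul_eq_mul, Finset.card_univ]
    ring
  rw [Finset.sum_congr rfl h5, ← Finset.mul_sum] at h0
  refine (mul_eq_zero.1 h0).resolve_left ?_
  exact_mod_cast Fintype.card_ne_zero

/-- The form of the zero element vanishes. -/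
lemma formOf_eq_zero {a b : ℕ} (l : (Fin a → Fin b → (Fin n → ℂ)) →₀ ℂ) (h : elOf l = 0)
    (P : Fin a → MvPolynomial (Fin n) ℂ) (hP : ∀ i, P i ∈ linS n ^ b) : formOf l P = 0 := by
  refine multilinear_zero_of_span (formOf l)
    (Set.range (fun c : Fin b → Fin n => ∏ j, (X (c j) : MvPolynomial (Fin n) ℂ))) ?_ P
    (fun i => span_pow_eq _ _ (hP i))
  intro w hw
  choose d hd using hw
  have h2 : w = fun i => ∏ j, X (d i j) := by
    funext i; exact (hd i).symm
  rw [h2, formOf_lin l (fun i j => X (d i j)) (fun i j => LinearMap.proj (d i j))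
    (fun i j => evL_X _), h, map_zero]

/-- `Inter` for highest weight vectors of weight `lam`. -/
def InterHW (a q n : ℕ) (lam : Fin n → ℕ) : Prop :=
  ∀ x : Sym[ℂ]^a (Sym[ℂ]^(q * (a - 1)) (Fin n → ℂ)), x ∈ hwSpace lam (plethAct a (q * (a - 1)) n) →
    foulkesHowe a (q * (a - 1)) (Fin n → ℂ) x = 0 → powMapG a q (a - 1) (Fin n → ℂ) x = 0 → x = 0

/-- The joint kernel of the canonical map and of the power map. -/
noncomputable def jointKer (d q c n : ℕ) : Submodule ℂ (Sym[ℂ]^d (Sym[ℂ]^(q * c) (Fin n → ℂ))) :=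
  LinearMap.ker (foulkesHowe d (q * c) (Fin n → ℂ)) ⊓ LinearMap.ker (powMapG d q c (Fin n → ℂ))

lemma mem_jointKer {d q c n : ℕ} (x : Sym[ℂ]^d (Sym[ℂ]^(q * c) (Fin n → ℂ))) :
    x ∈ jointKer d q c n ↔
    foulkesHowe d (q * c) (Fin n → ℂ) x = 0 ∧ powMapG d q c (Fin n → ℂ) x = 0 := by
  rw [jointKer, Submodule.mem_inf, LinearMap.mem_ker, LinearMap.mem_ker]

lemma jointKer_inv {d q c n : ℕ} (g : Matrix (Fin n) (Fin n) ℂ) :
    ∀ x ∈ jointKer d q c n, symMap d (symMap (q * c) (Matrix.toLin' g)) x ∈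
      jointKer d q c n := by
  intro x hx
  rw [mem_jointKer] at hx ⊢
  constructor
  · have h1 : foulkesHowe d (q * c) (Fin n → ℂ) (symMap d (symMap (q * c) (Matrix.toLin' g)) x) =
        symMap (q * c) (symMap d (Matrix.toLin' g)) (foulkesHowe d (q * c) (Fin n → ℂ) x) :=
      LinearMap.congr_fun (foulkesHowe_equivariant d (q * c) (Matrix.toLin' g)) x
    rw [hx.1, map_zero] at h1
    exact h1
  · have h1 : powMapG d q c (Fin n → ℂ) (symMap d (symMap (q * c) (Matrix.toLin' g)) x) =
        symMap (q * d) (symMap c (Matrix.toLin' g)) (powMapG d q c (Fin n → ℂ) x) :=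
      LinearMap.congr_fun (powMapG_equivariant d q c (Matrix.toLin' g)) x
    rw [hx.2, map_zero] at h1
    exact h1

/-- The joint kernel is zero if it contains no nonzero highest weight vector. -/
theorem jointKer_eq_bot {d q c n : ℕ} (h : ∀ lam : Fin n → ℕ, ∀ x : Pleth d (q * c) n,
    x ∈ hwSpace lam (plethAct d (q * c) n) → foulkesHowe d (q * c) (Fin n → ℂ) x = 0 →
      powMapG d q c (Fin n → ℂ) x = 0 → x = 0) : jointKer d q c n = ⊥ := by
  by_contra hne
  obtain ⟨lam, w, hw, hw0, hwh⟩ := exists_hw_pleth d (q * c) n (jointKer d q c n)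
    (fun g => jointKer_inv g) hne
  have hw' := (mem_jointKer (d := d) (q := q) (c := c) (n := n) w).1 hw
  exact hw0 (h lam w hwh hw'.1 hw'.2)

/-- **`Inter` from highest weight vectors.** -/
theorem inter_of_types {a q n : ℕ} (h : ∀ lam : Fin n → ℕ, InterHW a q n lam) : Inter a q n := by
  intro F hs hG hK P hP
  obtain ⟨l, hl⟩ := exists_form (b := q * (a - 1)) F hs
  have h1 : foulkesHowe a (q * (a - 1)) (Fin n → ℂ) (elOf l) = 0 := by
    apply fh_eq_zero_of_isK
    intro m hm hmL
    rw [hl _ (fun i => ?_)]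
    · exact hK m hm hmL
    · rw [← hm]
      exact H536.multiset_prod_mem_pow _ _ hmL
  have h2 : powMapG a q (a - 1) (Fin n → ℂ) (elOf l) = 0 := by
    apply powMapG_eq_zero
    intro G hG'
    rw [hl _ (fun i => ?_)]
    · exact hG G hG'
    · rw [mul_comm, pow_mul]
      exact Submodule.pow_mem_pow _ hG' q
  have h3 : elOf l ∈ jointKer a q (a - 1) n := (mem_jointKer _).2 ⟨h1, h2⟩
  rw [jointKer_eq_bot (fun lam x hx hH hA => h lam x hx hH hA), Submodule.mem_bot] at h3
  rw [← hl P hP]
  exact formOf_eq_zero l h3 P hP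

end Vale.Agent.P181.H867
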